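import Crest.Agent.X262.St91.Defs
import Crest.Agent.X277.Cns.Lift
import Crest.Agent.X262.St91.Defs2
import Crest.Agent.X262.G4.Defs
import Crest.Agent.X262.Pf19.Defs
import Crest.Agent.X262.Pf19.Pf
import Crest.Agent.X262.Fano21.Nrm
import Crest.Agent.X262.Brg.Lines
import Crest.Agent.X262.Wd54.Pf

-- ▼ part X262/St91/Rec
section

/-!
# Row 262, G4 / START (helper91): the recursion of the two Beauville involutions

* `exists_sym` : `c₁ + c₂` descends to the fixed field of the swap;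
* `exists_gam` : the Plücker class of the secant line descends;
* `St.step`    : one involution; `exists_st` : the iteration;
* `large`      : the arithmetic of the lattice.
-/

set_option autoImplicit false

open MvPolynomial

noncomputable section

namespace Crest.Agent.X262.St91

open Crest.Agent.X277 Crest.Agent.X277.Lef Crest.Agent.X277.AN.G1 Crest.Agent.X277.BD
open Crest.Agent.X277.BD.Br (On oP)
open Crest.Agent.X262.Top (Hyp)
open Crest.Agent.R274.Prod1_134 (IsPF)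

variable {F L Q : Type} [Field F] [Algebra ℂ F] [Field L] [Algebra ℂ L] [Field Q] [Algebra ℂ Q]

section Desc

variable {ι : F →ₐ[ℂ] L} {τ : L →ₐ[ℂ] L} {j : Q →ₐ[ℂ] L}

theorem v_two (V : RZ ℂ L) : V.v 2 = 1 := by
  simpa only [map_ofNat] using V.v_alg (c := 2) two_ne_zero

theorem exists_sym (inv : ∀ x, τ (τ x) = x) (fix : ∀ x, τ x = x ↔ x ∈ j.range) (c : BD ℂ F) :
    ∃ C : BD ℂ Q, pb j C = pb ι c + pb (τ.comp ι) c := by
  suffices h : ∀ c : BD ℂ F, Free c → ∃ C : BD ℂ Q, pb j C = pb ι c + pb (τ.comp ι) c by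
    obtain ⟨a, b, ha, hb, rfl⟩ := exists_sub c
    obtain ⟨A, hA⟩ := h a ha
    obtain ⟨B, hB⟩ := h b hb
    exact ⟨A - B, by rw [map_sub, hA, hB, map_sub, map_sub]; abel⟩
  intro c hc
  obtain ⟨r, s, h0, h1, h2⟩ := hc.exists_fam
  have h3 : ∀ p : Fin (r + 1) × Fin (r + 1), ∃ q : Q,
      j q = ι (s p.1) * τ (ι (s p.2)) + ι (s p.2) * τ (ι (s p.1)) := fun p =>
    (fix _).1 (by simp only [map_add, map_mul, inv]; ring)
  choose q hq using h3
  have m1 : ∀ i, ι (s i) ∈ (pb ι c).Sec := fun i => pb_mem_Sec (h1 i)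
  have m2 : ∀ i, τ (ι (s i)) ∈ (pb (τ.comp ι) c).Sec := fun i => pb_mem_Sec (α := τ.comp ι) (h1 i)
  refine ⟨mxf ℂ q, ?_⟩
  rw [pb_mxf]
  refine (eq_mxf (fun p => ?_) fun V => ?_).symm
  · rw [hq]
    exact add_mem (mul_mem_Sec (m1 _) (m2 _)) (mul_mem_Sec (m1 _) (m2 _))
  · obtain ⟨i, hi⟩ : ∃ i, V.v (ι (s i)) = (pb ι c).val V := by
      rw [eq_mxf h1 h2, pb_mxf]
      exact exists_val_mxf (s := fun i => ι (s i)) ⟨0, (map_ne_zero ι).2 (h0 0)⟩ V
    obtain ⟨k, hk⟩ : ∃ i, V.v (τ (ι (s i))) = (pb (τ.comp ι) c).val V := by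
      rw [eq_mxf h1 h2, pb_mxf]
      exact exists_val_mxf (s := fun i => τ (ι (s i))) ⟨0, (map_ne_zero (τ.comp ι)).2 (h0 0)⟩ V
    rcases (m2 i V).eq_or_lt with h | h
    · exact ⟨(i, i), by rw [hq, ← two_mul, map_mul, v_two, one_mul, map_mul, hi, h, val_add]⟩
    · refine ⟨(i, k), ?_⟩
      rw [hq, Valuation.map_add_eq_of_lt_left, map_mul, hi, hk, val_add]
      rw [map_mul, map_mul, hi, hk]
      exact mul_lt_mul_of_le_of_lt_of_nonneg_of_pos (m1 k V) h zero_le (val_pos _ _)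

/-- the wedge of the two generic points -/
abbrev w2 (ι : F →ₐ[ℂ] L) (τ : L →ₐ[ℂ] L) {κ : Type} (y : κ → F) : κ × κ → L :=
  wd (fun i => ι (y i)) fun i => τ (ι (y i))

theorem tau_w2 (inv : ∀ x, τ (τ x) = x) {κ : Type} (y : κ → F) (p : κ × κ) :
    τ (w2 ι τ y p) = -w2 ι τ y p := by
  simp only [wd, map_sub, map_mul, inv]
  ring

theorem w2_ne {Γ : MvPolynomial (Fin 4) ℂ} (S : Hyp 3 Γ F) (hΓ : Mv99.Qt Γ)
    (pf : IsPF ι (τ.comp ι)) : w2 ι τ S.y (0, 1) ≠ 0 := by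
  have h0 : Γ ≠ 0 := fun h => hΓ.2.1 (by rw [h, coeff_zero])
  have h1 : LinearIndependent ℂ ![S.y 0, S.y 1] := by
    refine LinearIndependent.pair_iff.2 fun s t h => ?_
    have h2 : (C s * X 0 + C t * X 1 : MvPolynomial (Fin 4) ℂ).IsHomogeneous 1 :=
      (isHomogeneous_C_mul_X _ _).add (isHomogeneous_C_mul_X _ _)
    have h3 := (S.ker 1 _ h2).1 (by simpa [Algebra.smul_def] using h)
    have h4 : (C s * X 0 + C t * X 1 : MvPolynomial (Fin 4) ℂ) = 0 := by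
      by_contra h4
      have h5 := totalDegree_le_of_dvd_of_isDomain h3 h4
      rw [hΓ.1.totalDegree h0, h2.totalDegree h4] at h5
      omega
    exact ⟨by simpa using congrArg (eval (Pi.single 0 1)) h4,
      by simpa using congrArg (eval (Pi.single 1 1)) h4⟩
  intro h
  have h2 := Fintype.linearIndependent_iff.1 (pf.indep h1 h1)
    (fun p => if p = (0, 1) then 1 else if p = (1, 0) then -1 else 0)
    (by simpa [Fintype.sum_prod_type, wd, sub_eq_add_neg] using h) (0, 1)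
  simp at h2

theorem exists_gam (inv : ∀ x, τ (τ x) = x) (fix : ∀ x, τ x = x ↔ x ∈ j.range) {κ : Type}
    [Fintype κ] {y : κ → F} {p : κ × κ} (h : w2 ι τ y p ≠ 0) :
    ∃ γ : BD ℂ Q, pb j γ = mxf ℂ (w2 ι τ y) - pr ℂ (w2 ι τ y p) := by
  have h3 : ∀ p', ∃ q : Q, j q = w2 ι τ y p' / w2 ι τ y p := fun p' =>
    (fix _).1 (by rw [map_div₀, tau_w2 inv, tau_w2 inv, neg_div_neg_eq])
  choose q hq using h3
  refine ⟨mxf ℂ q, ?_⟩
  rw [pb_mxf]
  refine (eq_mxf (fun p' V => ?_) fun V => ?_).symm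
  · rw [hq, map_div₀, val_sub, val_pr h]
    exact div_le_div_of_nonneg_right (mem_Sec_mxf _ p' V) zero_le
  · obtain ⟨p', hp⟩ := exists_val_mxf (k := ℂ) ⟨p, h⟩ V
    exact ⟨p', by rw [hq, map_div₀, val_sub, val_pr h, hp]⟩

end Desc

section Rec

variable [Algebra.EssFiniteType ℂ F]

/-- the transform of `g` is `M⁽²⁾ - m δ` -/
def St (N : BD ℂ F → BD ℂ Q → Prop) (g δ : BD ℂ Q) (M : BD ℂ F) (m : ℤ) : Prop :=
  ∃ (θ : Q ≃ₐ[ℂ] Q) (C : BD ℂ Q), N M C ∧ Lin (pb (θ : Q →ₐ[ℂ] Q) g) (C - m • δ)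

/-- an involution of Beauville type for the class `q`, on the group `A` -/
def Bv (N : BD ℂ F → BD ℂ Q → Prop) (δ : BD ℂ Q) (A : AddSubgroup (BD ℂ F)) (q : BD ℂ F) : Prop :=
  ∃ (σ : Q ≃ₐ[ℂ] Q) (γ D : BD ℂ Q), N q D ∧ Lin δ (D - γ) ∧ pb (σ : Q →ₐ[ℂ] Q) γ = γ ∧
    ∀ c ∈ A, ∀ C, N c C → Lin (C + pb (σ : Q →ₐ[ℂ] Q) C) (bnum [c, q] • γ)

variable {N : BD ℂ F → BD ℂ Q → Prop} {g δ : BD ℂ Q} {A : AddSubgroup (BD ℂ F)}

theorem lin_iff {a b : BD ℂ Q} : Lin a b ↔ a - b ∈ (AddSubgroup.closure (Set.range (pr ℂ))) := by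
  refine ⟨?_, fun h => ?_⟩
  · rintro ⟨f, -, rfl⟩
    rw [add_sub_cancel_left]
    exact AddSubgroup.subset_closure ⟨f, rfl⟩
  · have h1 : Lin (a - b) 0 := by
      refine AddSubgroup.closure_induction (p := fun x _ => Lin x 0) ?_ Lin.rfl
        (fun _ _ _ _ h h' => by simpa using h.add h') (fun _ _ h => by simpa using h.neg) h
      rintro _ ⟨f, rfl⟩
      by_cases hf : f = 0
      · rw [hf, pr_zero]
        exact Lin.rfl
      · exact ⟨f, hf, (zero_add _).symm⟩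
    simpa using h1.add (Lin.rfl (a := b))

theorem St.step (hN : ∀ a b C D, ∀ y : ℤ, N a C → N b D → N (y • a - b) (y • C - D)) {q M : BD ℂ F}
    {m : ℤ} (hq : q ∈ A) (h4 : bnum [q, q] = 4) (hB : Bv N δ A q) (hM : M ∈ A)
    (h : St N g δ M m) :
    St N g δ ((bnum [M, q] - 2 * m) • q - M) (bnum [M, q] - 2 * m - m) := by
  obtain ⟨θ, C, h1, h2⟩ := h
  obtain ⟨σ, γ, D, h3, h5, h6, h7⟩ := hB
  refine ⟨θ.trans σ, _, hN _ _ _ _ _ h3 h1, ?_⟩
  have e1 := h2.pb (σ : Q →ₐ[ℂ] Q)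
  have e2 := h5.pb (σ : Q →ₐ[ℂ] Q)
  have e3 := h7 M hM C h1
  have e4 := h7 q hq D h3
  rw [pb_pb, map_sub, map_zsmul] at e1
  rw [map_sub, h6] at e2
  rw [h4] at e4
  rw [lin_iff] at e1 e2 e3 e4 h5 ⊢
  have e5 := add_mem (sub_mem (sub_mem (add_mem e1 e3) (zsmul_mem e2 m)) (zsmul_mem e4 m))
    (zsmul_mem h5 (bnum [M, q] - 2 * m - m))
  convert e5 using 1
  change pb ((σ : Q →ₐ[ℂ] Q).comp (θ : Q →ₐ[ℂ] Q)) g - _ = _
  module

/-- the invariants of the recursion -/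
structure Iv (f q q' M : BD ℂ F) (m c : ℤ) : Prop where
  span : ∃ s α β : ℤ, s ^ 2 = 1 ∧ M = (2 * s) • f + α • q + β • q'
  sq : bnum [M, M] = 2 * m ^ 2 + c

theorem Iv.symm {f q q' M : BD ℂ F} {m c : ℤ} (h : Iv f q q' M m c) : Iv f q' q M m c :=
  ⟨h.span.elim fun s ⟨α, β, h1, h2⟩ => ⟨s, β, α, h1, by rw [h2]; abel⟩, h.sq⟩

theorem Iv.step {f q q' M : BD ℂ F} {m c : ℤ} (h4 : bnum [q, q] = 4) (h : Iv f q q' M m c) :
    Iv f q q' ((bnum [M, q] - 2 * m) • q - M) (bnum [M, q] - 2 * m - m) c := by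
  obtain ⟨⟨s, α, β, h1, h2⟩, h3⟩ := h
  refine ⟨⟨-s, bnum [M, q] - 2 * m - α, -β, by rw [neg_sq, h1], ?_⟩, ?_⟩
  · generalize bnum [M, q] = n
    rw [h2]
    module
  · rw [bnum_sub, bnum_sub2, bnum_sub2, bnum_zsmul, bnum_zsmul, bnum_zsmul2, bnum_zsmul2, h4, h3,
      bnum_swap q M]
    ring

/-- the iteration; `M.q - 2 m` is the next step and `M.q' - 2 m` the last one -/
theorem exists_st (hN : ∀ a b C D, ∀ y : ℤ, N a C → N b D → N (y • a - b) (y • C - D))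
    {f : BD ℂ F} {c k : ℤ} (hk : 5 ≤ k) (n : ℕ) : ∀ {q q' M : BD ℂ F} {m : ℤ}, q ∈ A → q' ∈ A →
    bnum [q, q] = 4 → bnum [q', q'] = 4 → bnum [q, q'] = k → Bv N δ A q → Bv N δ A q' → M ∈ A →
    St N g δ M m → Iv f q q' M m c → 0 < m → 4 * m ≤ bnum [M, q] → bnum [M, q'] ≤ bnum [M, q] →
    ∃ M' ∈ A, ∃ m' : ℤ, bnum [M, q] - 3 * m + n ≤ m' ∧ St N g δ M' m' ∧ Iv f q q' M' m' c := by
  induction n with
  | zero =>
    intro q q' M m a1 _ a3 _ _ a6 _ hM h1 h2 _ _ _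
    exact ⟨_, sub_mem (zsmul_mem a1 _) hM, _, by omega, h1.step hN a1 a3 a6 hM, h2.step a3⟩
  | succ n ih =>
    intro q q' M m a1 a2 a3 a4 a5 a6 a7 hM h1 h2 h3 h4 h5
    have e1 : bnum [(bnum [M, q] - 2 * m) • q - M, q'] = (bnum [M, q] - 2 * m) * k - bnum [M, q'] := by
      rw [bnum_sub, bnum_zsmul, a5]
    have e2 : bnum [(bnum [M, q] - 2 * m) • q - M, q] = (bnum [M, q] - 2 * m) * 4 - bnum [M, q] := by
      rw [bnum_sub, bnum_zsmul, a3]
    have e3 : (bnum [M, q] - 2 * m) * 5 ≤ (bnum [M, q] - 2 * m) * k :=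
      mul_le_mul_of_nonneg_left hk (by omega)
    obtain ⟨M', b1, m', b2, b3, b4⟩ := ih a2 a1 a4 a3 (by rw [bnum_swap, a5]) a7 a6
      (sub_mem (zsmul_mem a1 _) hM) (h1.step hN a1 a3 a6 hM) (h2.step a3).symm (by omega)
      (by omega) (by omega)
    exact ⟨M', b1, m', by omega, b3, b4.symm⟩

/-- the arithmetic of the lattice -/
theorem large {f q q' M : BD ℂ F} {m e : ℤ} (he : 0 < e) (h1 : bnum [q, q] = 4)
    (h2 : bnum [q', q'] = 4) (h3 : bnum [q, q'] = 4 + 4 * e) (h4 : bnum [f, q] = 4 + 6 * e)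
    (h5 : bnum [f, q'] = 4 + 6 * e) (h6 : bnum [f, f] = 4 + 10 * e) (hf : f ∈ A) (hq : q ∈ A)
    (hq' : q' ∈ A) (h : Iv f q q' M m (40 * e - 34)) {D : ℕ} (hD : D * (32 * e ^ 2) ^ 2 ≤ m)
    (hm : 0 < m) {a : BD ℂ F}
    (ha : ∀ b ∈ A, bnum [M, M] * bnum [a, b] = bnum [a, M] * bnum [M, b]) (haA : a ∈ A)
    (h0 : bnum [a, M] ≠ 0) : (D : ℤ) ≤ bnum [a, a] := by
  obtain ⟨⟨s, α, β, hs, hM⟩, h7⟩ := h
  have e1 := ha _ (sub_mem (zsmul_mem hf (4 + 2 * e)) (zsmul_mem (add_mem hq hq') (2 + 3 * e)))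
  have e2 := ha a haA
  have e3 : bnum [M, (4 + 2 * e) • f - (2 + 3 * e) • (q + q')] = -s * (32 * e ^ 2) := by
    rw [hM]
    simp only [bnum_add, bnum_zsmul, bnum_sub2, bnum_add2, bnum_zsmul2, h1, h2, h3, h4, h5, h6,
      bnum_swap q f, bnum_swap q' f, bnum_swap q' q]
    ring
  rw [e3] at e1
  rw [bnum_swap M a] at e2
  generalize bnum [a, (4 + 2 * e) • f - (2 + 3 * e) • (q + q')] = v at e1
  generalize bnum [a, M] = u at e1 e2 h0
  generalize bnum [a, a] = w at e2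
  generalize bnum [M, M] = l at e1 e2 h7
  have hd : 0 < 32 * e ^ 2 := by positivity
  generalize 32 * e ^ 2 = d at e1 hD hd
  have hl : m ≤ l := by nlinarith
  have e4 : l * v ^ 2 = w * d ^ 2 := by
    refine mul_left_cancel₀ (show l ≠ 0 by omega) ?_
    linear_combination (l * v + u * (-s * d)) * e1 + u ^ 2 * d ^ 2 * hs - d ^ 2 * e2
  have hv : v ≠ 0 := by
    rintro rfl
    have : u * d = 0 := by linear_combination s * e1 - u * d * hs
    exact mul_ne_zero h0 hd.ne' this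
  have e5 : 1 ≤ v ^ 2 := by
    have := pow_pos (abs_pos.2 hv) 2
    rwa [sq_abs] at this
  have e6 : D * d ^ 2 ≤ w * d ^ 2 := by nlinarith
  exact le_of_mul_le_mul_right e6 (by positivity)

end Rec

end Crest.Agent.X262.St91
end
end

-- ▼ part X262/St91/Glue
section

/-!
# Row 262, G4 / START (helper91): the glue `start_of`
-/

set_option autoImplicit false

open scoped KaehlerDifferential

noncomputable section

namespace Crest.Agent.X262.St91

open Crest.Agent.X277 Crest.Agent.X277.Lef Crest.Agent.X277.AN.G1 Crest.Agent.X277.BD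
open Crest.Agent.X277.BD.Br (On oP)
open Crest.Agent.X262.Top (Hyp Lines)
open Crest.Agent.R274.Prod1_134 (IsPF)

variable {F L Q : Type} [Field F] [Algebra ℂ F] [Field L] [Algebra ℂ L] [Field Q] [Algebra ℂ Q]

variable (F) in
theorem exists_sq : ∃ (L : Type) (_ : Field L) (_ : Algebra ℂ L) (ι : F →ₐ[ℂ] L) (τ : L →ₐ[ℂ] L),
    IsPF ι (τ.comp ι) ∧ ∀ x, τ (τ x) = x := by
  have pf := R274.Prod1_134.isPF ℂ F F
  refine ⟨_, _, _, R274.Prod1_134.pα ℂ F F, (Cns.swap pf).toAlgHom, ?_, DFunLike.congr_fun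
    (Cns.pf_ext pf (γ := (Cns.swap pf).toAlgHom.comp (Cns.swap pf).toAlgHom) (γ' := AlgHom.id ℂ _)
      (by simp) (by simp))⟩
  rwa [show (Cns.swap pf).toAlgHom.comp (R274.Prod1_134.pα ℂ F F) = R274.Prod1_134.pβ ℂ F F from
    AlgHom.ext (Cns.swap_left pf)]

/-- the Plücker vector of a point of the chart -/
def pk (a : Fin 8 → Q) (ij : Fin 6 × Fin 6) : Q :=
  wd ![1, 0, a 0, a 1, a 2, a 3] ![0, 1, a 4, a 5, a 6, a 7] ij

theorem map_pk (j : Q →ₐ[ℂ] L) (a : Fin 8 → Q) (ij : Fin 6 × Fin 6) :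
    j (pk a ij) = pk (fun i => j (a i)) ij := by
  have h1 : ∀ i, j ((![1, 0, a 0, a 1, a 2, a 3] : Fin 6 → Q) i) =
      (![1, 0, j (a 0), j (a 1), j (a 2), j (a 3)] : Fin 6 → L) i := fun i => by
    fin_cases i <;> simp
  have h2 : ∀ i, j ((![0, 1, a 4, a 5, a 6, a 7] : Fin 6 → Q) i) =
      (![0, 1, j (a 4), j (a 5), j (a 6), j (a 7)] : Fin 6 → L) i := fun i => by
    fin_cases i <;> simp
  simp only [pk, wd, map_sub, map_mul, h1, h2]

theorem pb_pk (j : Q →ₐ[ℂ] L) (a : Fin 8 → Q) :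
    pb j (mxf ℂ (pk a)) = mxf ℂ (pk fun i => j (a i)) := by
  rw [pb_mxf]
  exact congrArg _ (funext (map_pk j a))

/-- the transform of the line by an automorphism of the fixed field -/
def twist {G : MvPolynomial (Fin 6) ℂ} (Λ : Lines G F L) (j : Q →ₐ[ℂ] L) (a : Fin 8 → Q)
    (ha : ∀ i, j (a i) = Λ.a i) (fix : ∀ x, Λ.τ x = x ↔ x ∈ j.range) (θ : Q ≃ₐ[ℂ] Q) :
    Lines G F L :=
  { Λ with
    a := fun i => j (θ (a i))
    on := fun q hq => by
      have h1 : MvPolynomial.aeval a q = 0 := j.toRingHom.injective (by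
        have h := Λ.on q hq
        rw [← funext ha] at h
        exact ((MvPolynomial.comp_aeval_apply a j q).trans h).trans (map_zero j).symm)
      have h2 := MvPolynomial.comp_aeval_apply a (j.comp (θ : Q →ₐ[ℂ] Q)) q
      rw [h1, map_zero] at h2
      exact h2.symm
    fix := fun x => by
      have h1 : ∀ γ : Q →ₐ[ℂ] L, IntermediateField.adjoin ℂ (Set.range fun i => γ (a i)) =
          (IntermediateField.adjoin ℂ (Set.range a)).map γ := fun γ => by
        rw [IntermediateField.adjoin_map, ← Set.range_comp]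
        rfl
      have h2 : IntermediateField.adjoin ℂ (Set.range a) = ⊤ := top_unique fun z _ => by
        have h3 := (Λ.fix _).1 ((fix (j z)).2 ⟨z, rfl⟩)
        rw [← funext ha, h1] at h3
        obtain ⟨z', h4, h5⟩ := h3
        rwa [← j.toRingHom.injective h5]
      rw [fix]
      refine ⟨?_, fun h => ?_⟩
      · rintro ⟨z, rfl⟩
        refine (h1 (j.comp (θ : Q →ₐ[ℂ] Q))).ge ⟨θ.symm z, h2 ▸ trivial, ?_⟩
        simp
      · obtain ⟨z, -, rfl⟩ := (h1 (j.comp (θ : Q →ₐ[ℂ] Q))).le h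
        exact ⟨θ z, rfl⟩ }

variable [Algebra.EssFiniteType ℂ F] {ι : F →ₐ[ℂ] L} {τ : L →ₐ[ℂ] L} {j : Q →ₐ[ℂ] L}

theorem bv_of_stmt (hB : BvStmt) {Γ : MvPolynomial (Fin 4) ℂ} (S : Hyp 3 Γ F) (hΓ : Mv99.Qt Γ)
    (hN : NoL Γ) (pf : IsPF ι (τ.comp ι)) (inv : ∀ x, τ (τ x) = x)
    (fix : ∀ x, τ x = x ↔ x ∈ j.range) {δ : BD ℂ Q} {w : L} (hw : w ≠ 0) (hτ : τ w = -w)
    (hδ : pb j δ = dgl ι (τ.comp ι) S.y + pr ℂ w) {A : AddSubgroup (BD ℂ F)} (hA : A ≤ On S.P) :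
    Bv (fun c C => pb j C = pb ι c + pb (τ.comp ι) c) δ A (oP S.P) := by
  obtain ⟨σ, h⟩ := hB Γ F L Q S ι τ j hΓ hN pf inv fix
  have h0 := w2_ne S hΓ pf
  obtain ⟨γ, hγ⟩ := exists_gam inv fix h0
  obtain ⟨D, hD⟩ := exists_sym inv fix (oP S.P)
  obtain ⟨r, hr⟩ := (fix (w / w2 ι τ S.y (0, 1))).1
    (by rw [map_div₀, hτ, tau_w2 inv, neg_div_neg_eq])
  replace hr : j r = _ := hr
  refine ⟨σ, γ, D, hD, ⟨r, fun h1 => div_ne_zero hw h0 (by rw [← hr, h1, map_zero]),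
    pb_injective j ?_⟩, (h γ hγ).1, fun c hc => (h γ hγ).2 c (hA hc)⟩
  rw [hδ, map_add, map_sub, hD, hγ, pb_pr, hr, pr_div hw h0]
  change pb ι (oP S.P) + pb (τ.comp ι) (oP S.P) - mxf ℂ (w2 ι τ S.y) + _ = _
  abel

/-- **the glue of START** -/
theorem start_of (h1 : CertStmt) (h2 : PfStmt) (h3 : GenStmt) (h4 : OnStmt) (h5 : DegStmt)
    (h6 : NumStmt) (h7 : BvStmt) : G4.StartStmt := by
  intro D
  obtain ⟨ω, c1, c2, c3, c4, ⟨G⟩⟩ := h1
  obtain ⟨F, _, _, _, hd, ⟨Z⟩⟩ := h3 _ G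
  obtain ⟨L, _, _, ι, τ, pf, inv⟩ := exists_sq F
  obtain ⟨Λ, rfl, rfl, u, hu, hu', hp⟩ := h2 ω c1 c2 c3 c4 F L Z.p ι τ hd Z.on Z.gen pf inv
  let Q := IntermediateField.adjoin ℂ (Set.range Λ.a)
  have fix : ∀ x, Λ.τ x = x ↔ x ∈ Q.val.range := fun x =>
    (Λ.fix x).trans ⟨fun h => ⟨⟨x, h⟩, rfl⟩, by rintro ⟨z, rfl⟩; exact z.2⟩
  let a : Fin 8 → Q := fun i => ⟨Λ.a i, IntermediateField.subset_adjoin _ _ ⟨i, rfl⟩⟩
  obtain ⟨o1, o2, o3, o4, o5⟩ := h4 _ G F Z
  have h0 := w2_ne Z.S G.M.qt pf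
  obtain ⟨o6, o7⟩ := o5 L Λ.ι (Λ.τ.comp Λ.ι) fun h => h0 (by
    have h' : ∀ x, Λ.τ (Λ.ι x) = Λ.ι x := fun x => (DFunLike.congr_fun h x).symm
    simp only [wd, h']
    ring)
  obtain ⟨γ, hγ⟩ := exists_gam Λ.inv fix h0
  obtain ⟨C1, hC1⟩ := exists_sym (ι := Λ.ι) Λ.inv fix (oP Z.S.P)
  obtain ⟨Cf, hCf⟩ := exists_sym (ι := Λ.ι) Λ.inv fix (mxf ℂ Z.p)
  set w := w2 Λ.ι Λ.τ Z.S.y (0, 1) with hw
  have hw' : Λ.τ w = -w := tau_w2 Λ.inv _ _
  have hδ : pb Q.val (C1 - γ) = dgl Λ.ι (Λ.τ.comp Λ.ι) Z.S.y + pr ℂ w := by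
    rw [map_sub, hC1, hγ]
    change _ = pb Λ.ι (oP Z.S.P) + pb (Λ.τ.comp Λ.ι) (oP Z.S.P) - mxf ℂ (w2 Λ.ι Λ.τ Z.S.y) + _
    abel
  have b1 := bv_of_stmt h7 Z.S G.M.qt G.M.nl pf Λ.inv fix h0 hw' hδ
    (A := On Z.S.P ⊓ On Z.T.P) inf_le_left
  have b2 := bv_of_stmt h7 Z.T G.N.qt G.N.nl pf Λ.inv fix h0 hw' (by rw [hδ, o6, o7])
    (A := On Z.S.P ⊓ On Z.T.P) inf_le_right
  obtain ⟨e, he, n1, n2, n3, n4⟩ := h6 _ G F Z
  have d1 := (h5 _ F Z.S G.M.qt).2
  have d2 := (h5 _ F Z.T G.N.qt).2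
  have m0 : mxf ℂ Z.p ∈ On Z.S.P ⊓ On Z.T.P := ⟨o1, o2⟩
  have m1 : oP Z.S.P ∈ On Z.S.P ⊓ On Z.T.P := ⟨Br.oP_mem, o4⟩
  have m2 : oP Z.T.P ∈ On Z.S.P ⊓ On Z.T.P := ⟨o3, Br.oP_mem⟩
  obtain ⟨r, hr⟩ := (fix (u * w ^ 5)).1 (by rw [map_mul, map_pow, hu', hw']; ring)
  replace hr : Q.val r = _ := hr
  have s0 : St (fun c C => pb Q.val C = pb Λ.ι c + pb (Λ.τ.comp Λ.ι) c) (mxf ℂ (pk a)) (C1 - γ)
      ((2 : ℤ) • mxf ℂ Z.p) 5 := by
    refine ⟨AlgEquiv.refl, (2 : ℤ) • Cf, by simp only [map_zsmul, hCf, smul_add], r,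
      fun h => mul_ne_zero hu (pow_ne_zero 5 h0) (by rw [← hr, h, map_zero]), pb_injective Q.val ?_⟩
    rw [pb_pb, pb_pk, map_add, map_sub, map_zsmul, map_zsmul, hCf, hδ, pb_pr, hr,
      pr_mul hu (pow_ne_zero 5 h0), pr_pow h0, o6]
    refine hp.trans ?_
    module
  obtain ⟨M, hM, m, k1, ⟨θ, C, k2, z, hz, k3⟩, k4⟩ := exists_st (c := 40 * e - 34)
    (f := mxf ℂ Z.p) (k := 4 + 4 * e) (fun _ _ _ _ y h h' => by
      simp only [map_sub, map_zsmul, h, h']
      module) (by omega) ((D : ℤ) * (32 * e ^ 2) ^ 2).toNat m1 m2 d1 d2 n1 b1 b2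
    (zsmul_mem m0 2) s0 ⟨⟨1, 0, 0, by norm_num, by simp⟩, by
      rw [bnum_zsmul, bnum_zsmul2, n4]
      ring⟩ (by norm_num) (by rw [bnum_zsmul, n2]; omega) (by rw [bnum_zsmul, bnum_zsmul, n2, n3])
  rw [bnum_zsmul, n2] at k1
  obtain ⟨m, rfl⟩ := Int.eq_ofNat_of_zero_le (show 0 ≤ m by omega)
  have : Module.Finite F Ω[F⁄ℂ] := Module.finite_of_finrank_pos (by
    change 0 < dim ℂ F
    omega)
  have hz' : Q.val z ≠ 0 := (map_ne_zero Q.val).2 hz
  refine ⟨F, _, _, _, L, _, _, ⟨G.M.Γ, G.M.qt, Z.S, Module.finBasisOfFinrankEq F _ hd, _, c2,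
    twist Λ Q.val a (fun _ => rfl) fix θ, pf, M, hM.1,
    by rw [k4.sq]; nlinarith [sq_nonneg (m : ℤ)],
    m, by omega, Q.val z / w ^ m, div_ne_zero hz' (pow_ne_zero _ h0), ?_, ?_⟩,
    fun b hb h h' => ?_⟩
  · change Λ.τ _ = _
    rw [map_div₀, map_pow, hw', (fix (Q.val z)).2 ⟨z, rfl⟩, neg_pow w, ← mul_div_assoc,
      div_eq_div_iff (mul_ne_zero (by simp) (pow_ne_zero _ h0)) (pow_ne_zero _ h0),
      mul_mul_mul_comm, ← mul_pow]
    simp
  · have k5 := congrArg (pb Q.val) k3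
    rw [pb_pb, pb_pk, map_add, map_sub, map_zsmul, k2, hδ, pb_pr] at k5
    rw [pr_div hz' (pow_ne_zero _ h0), pr_pow h0]
    refine k5.trans ?_
    change _ = pb Λ.ι M + pb (Λ.τ.comp Λ.ι) M - m • dgl Λ.ι (Λ.τ.comp Λ.ι) Z.S.y + _
    module
  · exact large (A := On Z.S.P) he d1 d2 n1 n2 n3 n4 o1 Br.oP_mem o3 k4 (by omega) (by omega) h hb
      h'

end Crest.Agent.X262.St91
end
end

-- ▼ part X262/Pf19/Val
section

/-!
# Row 262, PF (helper19), part 2: the Beauville-Donagi map at a valuation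

* `li_r`, `li_four` : two distinct planes of the surface span a four-dimensional space;
* `core`            : the normal form over a valuation ring;
* `mx_Phi`          : `|Φ| = |P|² |Q|² (|P ∧ Q| / |P| |Q|)⁵`.
-/

set_option autoImplicit false

noncomputable section

namespace Crest.Agent.X262.Pf19

variable {ω : Om}

section wd

variable {A ι : Type} [CommRing A]

theorem map_wd {B : Type} [CommRing B] (f : A →+* B) (u v : ι → A) :
    f ∘ wd u v = wd (f ∘ u) (f ∘ v) := by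
  ext ij
  simp [wd]

theorem wd_comb (u v : ι → A) (a b c d : A) :
    wd (a • u + b • v) (c • u + d • v) = (a * d - b * c) • wd u v := by
  ext ij
  simp only [wd, Pi.add_apply, Pi.smul_apply, smul_eq_mul]
  ring

theorem wd_smul (u v : ι → A) (a b : A) : wd (a • u) (b • v) = (a * b) • wd u v := by
  ext ij
  simp only [wd, Pi.smul_apply, smul_eq_mul]
  ring

theorem wd_ne_iff {K : Type} [Field K] {u v : ι → K} :
    wd u v ≠ 0 ↔ ∀ s t : K, s • u + t • v = 0 → s = 0 ∧ t = 0 := by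
  refine ⟨fun h s t e => ?_, fun h h0 => ?_⟩
  · have h1 := wd_comb u v s t 0 1
    have h2 := wd_comb u v 1 0 s t
    have z1 : ∀ x : ι → K, wd 0 x = 0 := fun x => by ext; simp [wd]
    have z2 : ∀ x : ι → K, wd x 0 = 0 := fun x => by ext; simp [wd]
    rw [e, z1] at h1
    rw [e, z2] at h2
    exact ⟨by simpa [h] using h1.symm, by simpa [h] using h2.symm⟩
  · have h1 : ∀ i, v i = 0 ∧ -u i = 0 := fun i => h _ _ (by
      ext j
      have := congrFun h0 (j, i)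
      simp only [wd, Pi.zero_apply] at this
      simp only [Pi.add_apply, Pi.smul_apply, smul_eq_mul, Pi.zero_apply]
      linear_combination this)
    exact one_ne_zero (h 0 1 (by ext i; simp [(h1 i).1])).2

end wd

/-- `p` has an identity block, `r` vanishes there, `q = α p + e r` -/
structure NF {A : Type} [CommRing A] (i j : Fin 6) (p q r : Fin 2 → Fin 6 → A)
    (α : Fin 2 → Fin 2 → A) (e : A) : Prop where
  p0i : p 0 i = 1
  p0j : p 0 j = 0
  p1i : p 1 i = 0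
  p1j : p 1 j = 1
  ri : ∀ l, r l i = 0
  rj : ∀ l, r l j = 0
  eq : ∀ l, q l = α l 0 • p 0 + α l 1 • p 1 + e • r l

/-- the relation between the six vectors -/
def bet {A : Type} [CommRing A] (α : Fin 2 → Fin 2 → A) (e : A) : Fin 6 → A :=
  ![0, -α 1 0, α 0 0, -α 1 1, α 0 1, e]

section NF

variable {i j : Fin 6}

theorem NF.map {A B : Type} [CommRing A] [CommRing B] (f : A →+* B) {p q r : Fin 2 → Fin 6 → A}
    {α : Fin 2 → Fin 2 → A} {e : A} (h : NF i j p q r α e) :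
    NF i j (fun l => f ∘ p l) (fun l => f ∘ q l) (fun l => f ∘ r l) (fun l => f ∘ α l) (f e) :=
  ⟨by simp [h.p0i], by simp [h.p0j], by simp [h.p1i], by simp [h.p1j], by simp [h.ri],
    by simp [h.rj], fun l => by ext k; simp [h.eq l]⟩

theorem NF.rel {A : Type} [CommRing A] [Algebra ℂ A] {p q r : Fin 2 → Fin 6 → A}
    {α : Fin 2 → Fin 2 → A} {e : A} (h : NF i j p q r α e) (hs : Skew ω)
    (hp : w ω (p 0) (p 1) = 0) :
    w ω (q 0) (q 1) = e • ∑ n, bet α e n • cols ω ![p 0, p 1, r 0, r 1] n := by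
  have h1 : w ω (p 1) (p 0) = 0 := by rw [hs.swap, hp, neg_zero]
  simp only [h.eq, map_add, map_smul, LinearMap.add_apply, LinearMap.smul_apply, hs.self, hp, h1,
    hs.swap (p 0) (r 0), hs.swap (p 1) (r 0), Fin.sum_univ_six, bet, cols]
  simp
  module

variable {K : Type} [Field K] [Algebra ℂ K] {p q r : Fin 2 → Fin 6 → K} {α : Fin 2 → Fin 2 → K}
  {e : K}

theorem NF.li_r (h : NF i j p q r α e) (hs : Skew ω) (hl : NoLine K ω) (hp : w ω (p 0) (p 1) = 0)
    (hq : wd (q 0) (q 1) ≠ 0) (hr : ∃ l, r l ≠ 0)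
    (hb : ∑ n, bet α e n • cols ω ![p 0, p 1, r 0, r 1] n = 0) : wd (r 0) (r 1) ≠ 0 := by
  refine wd_ne_iff.2 fun s t e0 => by_contra fun hst => ?_
  have h1 : w ω (p 1) (p 0) = 0 := by rw [hs.swap, hp, neg_zero]
  set x := s * α 0 0 + t * α 1 0 with hx
  set y := s * α 0 1 + t * α 1 1 with hy
  have hu : s • q 0 + t • q 1 = x • p 0 + y • p 1 := by
    rw [h.eq, h.eq, hx, hy]
    linear_combination (norm := module) e • e0
  obtain ⟨x', y', hd⟩ : ∃ x' y', x * y' - y * x' ≠ 0 := by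
    by_cases h0 : x = 0
    · refine ⟨1, 0, fun h2 => hst (wd_ne_iff.1 hq s t ?_)⟩
      rw [hu, h0, show y = 0 by linear_combination -h2, zero_smul, zero_smul, add_zero]
    · exact ⟨0, 1, by simpa using h0⟩
  have z : ∀ u, s • w ω u (r 0) + t • w ω u (r 1) = 0 := fun u => by
    rw [← map_smul, ← map_smul, ← map_add, e0, map_zero]
  have z0 := z (r 0)
  have z1 := z (r 1)
  rw [hs.self, smul_zero, zero_add] at z0
  rw [hs.self, smul_zero, add_zero, hs.swap, smul_neg, neg_eq_zero] at z1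
  simp only [Fin.sum_univ_six, bet, cols] at hb
  simp at hb
  obtain ⟨l, hl0⟩ := hr
  refine hl ![x • p 0 + y • p 1, x' • p 0 + y' • p 1, r l] (by simp [hs.self, hp, h1]) ?_ ?_
  · have a0 := z (p 0)
    have a1 := z (p 1)
    fin_cases l <;> simp [hx, hy]
    · linear_combination (norm := module) α 0 0 • a0 + α 0 1 • a1 - t • hb + e • z0
    · linear_combination (norm := module) α 1 0 • a0 + α 1 1 • a1 + s • hb - e • z1
  · refine Fintype.linearIndependent_iff.2 fun g hg => ?_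
    have c1 := congrFun hg i
    have c2 := congrFun hg j
    simp [Fin.sum_univ_three, h.p0i, h.p0j, h.p1i, h.p1j, h.ri, h.rj] at c1 c2
    have g0 : g 0 = 0 := (mul_eq_zero.1 (by linear_combination y' * c1 - x' * c2)).resolve_right hd
    have g1 : g 1 = 0 := (mul_eq_zero.1 (by linear_combination x * c2 - y * c1)).resolve_right hd
    have g2 : g 2 = 0 := by simpa [Fin.sum_univ_three, g0, g1, hl0] using hg
    intro n
    fin_cases n
    exacts [g0, g1, g2]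

omit [Algebra ℂ K] in
theorem NF.li_k (h : NF i j p q r α e) (hr : wd (r 0) (r 1) ≠ 0) :
    LinearIndependent K ![p 0, p 1, r 0, r 1] := by
  refine Fintype.linearIndependent_iff.2 fun g hg => ?_
  have c1 := congrFun hg i
  have c2 := congrFun hg j
  simp [Fin.sum_univ_four, h.p0i, h.p0j, h.p1i, h.p1j, h.ri, h.rj] at c1 c2
  obtain ⟨g2, g3⟩ := wd_ne_iff.1 hr (g 2) (g 3) (by simpa [Fin.sum_univ_four, c1, c2] using hg)
  intro n
  fin_cases n
  exacts [c1, c2, g2, g3]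

omit [Algebra ℂ K] in
theorem NF.bet_ne (h : NF i j p q r α e) (hq : wd (q 0) (q 1) ≠ 0) : bet α e ≠ 0 := fun h0 => by
  have h1 : α 0 0 = 0 := congrFun h0 2
  have h2 : α 0 1 = 0 := congrFun h0 4
  have h3 : e = 0 := congrFun h0 5
  exact one_ne_zero (wd_ne_iff.1 hq 1 0 (by simp [h.eq 0, h1, h2, h3])).1

/-- the relations between the six vectors form a plane -/
theorem NoConic.eq_zero (hc : NoConic K ω) {k : Fin 4 → Fin 6 → K} (hk : LinearIndependent K k)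
    {β β' γ : Fin 6 → K} (h1 : ∑ n, β n • cols ω k n = 0) (h2 : ∑ n, β' n • cols ω k n = 0)
    (h3 : ∑ n, γ n • cols ω k n = 0) {m n : Fin 6} (hm : β m ≠ 0) (hm' : β' m = 0) (hn : β' n ≠ 0)
    (g1 : γ m = 0) (g2 : γ n = 0) : γ = 0 := by
  obtain ⟨g, hg, l, hl⟩ := Fintype.not_linearIndependent_iff.1 (hc k hk ![β, β', γ] fun l => by
    fin_cases l
    exacts [h1, h2, h3])
  have c0 : g 0 = 0 := by simpa [Fin.sum_univ_three, hm, hm', g1] using congrFun hg m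
  have c1 : g 1 = 0 := by simpa [Fin.sum_univ_three, c0, hn, g2] using congrFun hg n
  have c2 : g 2 ≠ 0 := fun c2 => by fin_cases l <;> contradiction
  simpa [Fin.sum_univ_three, c0, c1, c2] using hg

end NF

theorem alt_update {A M : Type} [CommRing A] [AddCommGroup M] [Module A M] {n : ℕ}
    (f : M [⋀^Fin n]→ₗ[A] A) (c : Fin n → M) (m : Fin n) (t : Fin n → A) :
    f (Function.update c m (∑ l, t l • c l)) = t m * f c := by
  rw [f.map_update_sum, Finset.sum_eq_single m]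
  · rw [f.map_update_smul, Function.update_eq_self, smul_eq_mul]
  · intro l _ hl
    rw [f.map_update_smul, f.map_update_self _ hl.symm, smul_zero]
  · simp

/-- some member is a unit -/
def Prim {A ι : Type} [CommRing A] (s : ι → A) : Prop := ∃ i, IsUnit (s i)

section core

open IsLocalRing

variable {O : Type} [CommRing O] [IsDomain O] [ValuationRing O]

theorem prim_iff {ι : Type} {s : ι → O} : Prim s ↔ residue O ∘ s ≠ 0 := by
  simp [Prim, Function.ne_iff]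

theorem exists_dvd {ι : Type} [Fintype ι] [Nonempty ι] (s : ι → O) : ∃ i, ∀ j, s i ∣ s j := by
  have key : ∀ t : Finset ι, t.Nonempty → ∃ i, ∀ j ∈ t, s i ∣ s j := fun t ht => by
    induction ht using Finset.Nonempty.cons_induction with
    | singleton a => exact ⟨a, by simp⟩
    | cons a t _ _ ih =>
      obtain ⟨i, hi⟩ := ih
      rcases ValuationRing.dvd_total (s a) (s i) with h | h
      · exact ⟨a, Finset.forall_mem_cons _ _ |>.2 ⟨dvd_rfl, fun j hj => h.trans (hi j hj)⟩⟩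
      · exact ⟨i, Finset.forall_mem_cons _ _ |>.2 ⟨h, hi⟩⟩
  simpa using key _ Finset.univ_nonempty

variable [Algebra ℂ O]

theorem core' (hs : Skew ω) (hl : NoLine ℂ ω) (hc : NoConic ℂ ω) {i j : Fin 6}
    {p q r : Fin 2 → Fin 6 → O} {α : Fin 2 → Fin 2 → O} {e : O} (h : NF i j p q r α e)
    (he : e ≠ 0) (hr : ∃ l, Prim (r l)) (hp : w ω (p 0) (p 1) = 0) (hq : w ω (q 0) (q 1) = 0)
    (hQ : Prim (wd (q 0) (q 1))) :
    (∃ R, Prim R ∧ wd (wd (p 0) (p 1)) (wd (q 0) (q 1)) = e • R) ∧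
      ∃ Ψ, Prim Ψ ∧ Phi ω p q = e ^ 5 • Ψ := by
  let ρ : O →ₐ[ℂ] ResidueField O := IsScalarTower.toAlgHom ℂ O _
  have h' := h.map (residue O)
  have hb : ∑ n, bet α e n • cols ω ![p 0, p 1, r 0, r 1] n = 0 :=
    (smul_eq_zero.1 ((h.rel hs hp).symm.trans hq)).resolve_left he
  have e1 : residue O ∘ bet α e = bet (fun l => residue O ∘ α l) (residue O e) := by
    ext n
    fin_cases n <;> simp [bet]
  have e2 : ∀ n, residue O ∘ cols ω ![p 0, p 1, r 0, r 1] n = cols ω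
      ![residue O ∘ p 0, residue O ∘ p 1, residue O ∘ r 0, residue O ∘ r 1] n := fun n => by
    refine (map_cols ρ _ n).trans (congrArg (cols ω · n) (funext fun l => ?_))
    fin_cases l <;> rfl
  have hb' : ∑ n, bet (fun l => residue O ∘ α l) (residue O e) n • cols ω
      ![residue O ∘ p 0, residue O ∘ p 1, residue O ∘ r 0, residue O ∘ r 1] n = 0 := by
    ext a
    simpa [← e1, ← e2] using congrArg (residue O) (congrFun hb a)
  have hp' : w ω (residue O ∘ p 0) (residue O ∘ p 1) = 0 :=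
    (map_w ρ _ _).symm.trans (by rw [hp]; ext; simp)
  have hQ' := prim_iff.1 hQ
  rw [map_wd] at hQ'
  have hr' := h'.li_r hs (hl.field _) hp' hQ' (hr.imp fun l hl => prim_iff.1 hl) hb'
  have hk := h'.li_k hr'
  have hβ := h'.bet_ne hQ'
  constructor
  · let R := (-α 1 0) • wd (p 0) (r 0) + α 0 0 • wd (p 0) (r 1) + (-α 1 1) • wd (p 1) (r 0) +
      α 0 1 • wd (p 1) (r 1) + e • wd (r 0) (r 1)
    refine ⟨wd (wd (p 0) (p 1)) R, ?_, ?_⟩
    · by_contra hn
      have h0 : ∀ st, residue O (R st) = 0 := fun st => by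
        have h1 := (residue_eq_zero_iff _).2 ((mem_maximalIdeal _).2 fun hu => hn ⟨((i, j), st), hu⟩)
        simpa [wd, R, h.p0i, h.p0j, h.p1i, h.p1j, h.ri, h.rj] using h1
      obtain ⟨a1, a2⟩ := wd_ne_iff.1 hr' (-residue O (α 1 0)) (residue O (α 0 0)) (funext fun s => by
        simpa [wd, R, h.p0i, h.p1i, h.ri] using h0 (i, s))
      obtain ⟨a3, a4⟩ := wd_ne_iff.1 hr' (-residue O (α 1 1)) (residue O (α 0 1)) (funext fun s => by
        simpa [wd, R, h.p0j, h.p1j, h.rj] using h0 (j, s))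
      rw [neg_eq_zero] at a1 a3
      have a5 : residue O e = 0 := by
        refine (smul_eq_zero.1 (funext fun st => ?_)).resolve_right hr'
        simpa [wd, R, a1, a2, a3, a4] using h0 st
      refine hβ (funext fun n => ?_)
      fin_cases n <;> simp [bet, a1, a2, a3, a4, a5]
    · ext ⟨ab, st⟩
      simp only [wd, R, h.eq, Pi.add_apply, Pi.smul_apply, smul_eq_mul]
      ring
  · let c : Fin 4 → Fin 6 → O := fun m => cols ω ![p 0, p 1, r 0, r 1] m.succ.castSucc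
    have h1 : w ω (p 1) (p 0) = 0 := by rw [hs.swap, hp, neg_zero]
    have hc4 : c4 ω p q = fun m => e • c m := funext fun m => by
      fin_cases m <;> simp [c4, c, cols, h.eq, hs.self, hp, h1]
    have hPhi : Phi ω p q = e ^ 4 • mn (n := 4) c := funext fun ab => by
      rw [Phi, hc4, mn, AlternatingMap.map_smul_univ]
      simp [mn]
    have z0 : ∑ n, (Pi.single 0 1 : Fin 6 → ResidueField O) n • cols ω
        ![residue O ∘ p 0, residue O ∘ p 1, residue O ∘ r 0, residue O ∘ r 1] n = 0 := by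
      simpa [Pi.single_apply, cols] using hp'
    have pr : ∀ c' : Fin 4 → Fin 6 → O,
        LinearIndependent (ResidueField O) (fun m => residue O ∘ c' m) → Prim (mn (n := 4) c') :=
      fun c' hc' => prim_iff.2 (by
        rw [map_mn]
        exact Function.ne_iff.2 (exists_mn_ne (n := 4) hc'))
    obtain ⟨n, hn⟩ := Function.ne_iff.1 hβ
    have A := fun γ h3 => (hc.field _).eq_zero hk (γ := γ) z0 hb' h3 (m := 0) (n := n) (by simp)
      (by simp [bet]) hn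
    suffices ∃ Ψ, Prim Ψ ∧ mn (n := 4) c = e • Ψ by
      obtain ⟨Ψ, h2, h3⟩ := this
      exact ⟨Ψ, h2, by rw [hPhi, h3, smul_smul, ← pow_succ]⟩
    rw [← e1] at hn
    obtain ⟨b, hb1⟩ := ((residue_ne_zero_iff_isUnit _).1 hn).exists_left_inv
    simp only [Fin.sum_univ_six] at hb
    revert A hb1
    refine Fin.cases (fun _ hb1 => by simp [bet] at hb1)
      (fun n => Fin.lastCases (fun A hb1 => ?_) (fun m A hb1 => ?_) n) n
    · have hb2 : b * e = 1 := hb1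
      obtain ⟨ab, hab⟩ := pr c (Fintype.linearIndependent_iff.2 fun g hg m => by
        have := A ![0, g 0, g 1, g 2, g 3, 0] (by
          simpa [Fin.sum_univ_six, Fin.sum_univ_four, c, e2] using hg) rfl rfl
        fin_cases m
        exacts [congrFun this 1, congrFun this 2, congrFun this 3, congrFun this 4])
      exact ⟨b • mn (n := 4) c, ⟨ab, (IsUnit.of_mul_eq_one _ hb2).mul hab⟩,
        by rw [smul_smul, mul_comm, hb2, one_smul]⟩
    · let c' := Function.update c m (cols ω ![p 0, p 1, r 0, r 1] 5)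
      let t : Fin 4 → O := Function.update (fun l => -b * bet α e l.succ.castSucc) m (-b * e)
      have h2 : Function.update c' m (∑ l, t l • c' l) = c := by
        rw [Function.update_idem, Function.update_eq_self_iff]
        fin_cases m <;> simp [bet, cols, hp, c, c', t, Fin.sum_univ_four] at hb hb1 ⊢
        · linear_combination (norm := module) (-b) • hb + hb1 • w ω (p 0) (r 0)
        · linear_combination (norm := module) (-b) • hb + hb1 • w ω (p 0) (r 1)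
        · linear_combination (norm := module) (-b) • hb + hb1 • w ω (p 1) (r 0)
        · linear_combination (norm := module) (-b) • hb + hb1 • w ω (p 1) (r 1)
      obtain ⟨ab, hab⟩ := pr c' (Fintype.linearIndependent_iff.2 fun g hg l => by
        let g' := Function.update g m 0
        have := A ![0, g' 0, g' 1, g' 2, g' 3, g m] (by
          simp only [Fin.sum_univ_six, ← e2]
          fin_cases m <;> simp [Fin.sum_univ_four, c, c', g'] at hg ⊢ <;> rw [← hg] <;> abel) rfl (by fin_cases m <;> simp [g'])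
        by_cases hl : l = m
        · exact hl ▸ congrFun this 5
        · rw [← Function.update_of_ne hl 0 g]
          fin_cases l
          exacts [congrFun this 1, congrFun this 2, congrFun this 3, congrFun this 4])
      refine ⟨(-b) • mn (n := 4) c', ⟨ab, (IsUnit.of_mul_eq_one _ hb1).neg.mul hab⟩,
        funext fun ab => ?_⟩
      rw [← h2, mn, alt_update]
      simp [t, mn]
      ring

theorem core (hs : Skew ω) (hl : NoLine ℂ ω) (hc : NoConic ℂ ω) {i j : Fin 6}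
    {p q : Fin 2 → Fin 6 → O} (h1 : p 0 i = 1) (h2 : p 0 j = 0) (h3 : p 1 i = 0) (h4 : p 1 j = 1)
    (hp : w ω (p 0) (p 1) = 0) (hq : w ω (q 0) (q 1) = 0) (hQ : Prim (wd (q 0) (q 1)))
    (hne : wd (wd (p 0) (p 1)) (wd (q 0) (q 1)) ≠ 0) :
    ∃ e : O, (∃ R, Prim R ∧ wd (wd (p 0) (p 1)) (wd (q 0) (q 1)) = e • R) ∧
      ∃ Ψ, Prim Ψ ∧ Phi ω p q = e ^ 5 • Ψ := by
  let r' : Fin 2 × Fin 6 → O := fun lk => q lk.1 lk.2 - q lk.1 i * p 0 lk.2 - q lk.1 j * p 1 lk.2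
  obtain ⟨lk, hd⟩ := exists_dvd r'
  choose r hr using hd
  have hq' : ∀ l, q l = q l i • p 0 + q l j • p 1 + r' lk • fun k => r (l, k) := fun l => by
    ext k
    simp only [Pi.add_apply, Pi.smul_apply, smul_eq_mul, ← hr, r']
    ring
  have he : r' lk ≠ 0 := fun h0 => hne (by
    rw [hq' 0, hq' 1, h0, zero_smul, zero_smul, add_zero, add_zero, wd_comb]
    ext
    simp only [wd, Pi.smul_apply, smul_eq_mul, Pi.zero_apply]
    ring)
  exact ⟨_, core' hs hl hc (α := fun l => ![q l i, q l j]) (r := fun l k => r (l, k))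
    ⟨h1, h2, h3, h4, fun l => mul_left_cancel₀ he (by rw [← hr]; simp [r', h1, h3]),
      fun l => mul_left_cancel₀ he (by rw [← hr]; simp [r', h2, h4]), hq'⟩ he
    ⟨lk.1, lk.2, by
      change IsUnit (r (lk.1, lk.2))
      rw [show r (lk.1, lk.2) = 1 from mul_left_cancel₀ he (by rw [← hr, mul_one])]
      exact isUnit_one⟩ hp hq hQ⟩

end core

/-! ### arbitrary frames -/

section val

variable {L : Type} [Field L]

/-- `γ` is the largest value of the family -/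
def Mx {Γ ι : Type} [LinearOrderedCommGroupWithZero Γ] (v : Valuation L Γ) (s : ι → L) (γ : Γ) :
    Prop := (∀ i, v (s i) ≤ γ) ∧ ∃ i, v (s i) = γ

theorem Mx.unique {Γ ι : Type} [LinearOrderedCommGroupWithZero Γ] {v : Valuation L Γ} {s : ι → L}
    {γ γ' : Γ} (h : Mx v s γ) (h' : Mx v s γ') : γ = γ' :=
  le_antisymm (h.2.elim fun i e => e ▸ h'.1 i) (h'.2.elim fun i e => e ▸ h.1 i)

theorem mx_prim (V : ValuationSubring L) {ι : Type} {s : ι → V} (h : Prim s) (c : L) :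
    Mx V.valuation (c • (V.subtype ∘ s)) (V.valuation c) := by
  refine ⟨fun i => ?_, h.imp fun i hi => ?_⟩ <;> rw [Pi.smul_apply, smul_eq_mul, map_mul]
  · exact mul_le_of_le_one_right' (V.valuation_le_one _)
  · rw [Function.comp_apply, V.subtype_apply, (V.valuation_eq_one_iff _).1 hi, mul_one]

/-- an integral frame with an identity block -/
theorem exists_frame (V : ValuationSubring L) {p : Fin 2 → Fin 6 → L} (h : wd (p 0) (p 1) ≠ 0) :
    ∃ (i j : Fin 6) (p' : Fin 2 → Fin 6 → V), p' 0 i = 1 ∧ p' 0 j = 0 ∧ p' 1 i = 0 ∧ p' 1 j = 1 ∧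
      wd (p 0) (p 1) (i, j) ≠ 0 ∧
      ∀ l, p l = p l i • (V.subtype ∘ p' 0) + p l j • (V.subtype ∘ p' 1) := by
  obtain ⟨⟨i, j⟩, hm⟩ := Finite.exists_max fun ij => V.valuation (wd (p 0) (p 1) ij)
  have h0 : wd (p 0) (p 1) (i, j) ≠ 0 := fun h0 => h (funext fun ij => by
    simpa [h0] using hm ij)
  have key : ∀ ab, wd (p 0) (p 1) ab / wd (p 0) (p 1) (i, j) ∈ V := fun ab => by
    rw [← V.valuation_le_one_iff, map_div₀]
    exact div_le_one_of_le₀ (hm ab) zero_le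
  refine ⟨i, j, ![fun k => ⟨_, key (k, j)⟩, fun k => ⟨_, key (i, k)⟩],
    Subtype.ext (div_self h0), Subtype.ext (by simp [wd]),
    Subtype.ext (by simp [wd]), Subtype.ext (div_self h0), h0, fun l => ?_⟩
  ext k
  change _ = p l i * (wd (p 0) (p 1) (k, j) / wd (p 0) (p 1) (i, j)) +
    p l j * (wd (p 0) (p 1) (i, k) / wd (p 0) (p 1) (i, j))
  field_simp
  fin_cases l <;> simp [wd] <;> ring

variable [Algebra ℂ L]

theorem Phi_comb {A : Type} [CommRing A] [Algebra ℂ A] (p q : Fin 2 → Fin 6 → A)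
    (a b c d : Fin 2 → A) :
    Phi ω (fun l => a l • p 0 + b l • p 1) (fun l => c l • q 0 + d l • q 1) =
      ((a 0 * b 1 - b 0 * a 1) ^ 2 * (c 0 * d 1 - d 0 * c 1) ^ 2) • Phi ω p q := by
  have h := mn_mul (n := 4) !![a 0 * c 0, a 0 * d 0, b 0 * c 0, b 0 * d 0;
    a 0 * c 1, a 0 * d 1, b 0 * c 1, b 0 * d 1; a 1 * c 0, a 1 * d 0, b 1 * c 0, b 1 * d 0;
    a 1 * c 1, a 1 * d 1, b 1 * c 1, b 1 * d 1] (c4 ω p q)
  rw [Phi, Phi]
  convert h using 2
  · funext m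
    fin_cases m <;> simp [c4, Fin.sum_univ_four] <;> module
  · simp [Matrix.det_succ_row_zero, Fin.sum_univ_succ, Fin.succAbove]
    ring

/-- **the Beauville-Donagi map at a valuation** -/
theorem mx_Phi (hs : Skew ω) (hl : NoLine ℂ ω) (hc : NoConic ℂ ω) (V : ValuationSubring L)
    (hV : ∀ c : ℂ, algebraMap ℂ L c ∈ V) {p q : Fin 2 → Fin 6 → L} (hp : w ω (p 0) (p 1) = 0)
    (hq : w ω (q 0) (q 1) = 0) (hne : wd (wd (p 0) (p 1)) (wd (q 0) (q 1)) ≠ 0) :
    ∃ a b e : V.ValueGroup, Mx V.valuation (wd (p 0) (p 1)) a ∧ Mx V.valuation (wd (q 0) (q 1)) b ∧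
      Mx V.valuation (wd (wd (p 0) (p 1)) (wd (q 0) (q 1))) (a * b * e) ∧
      Mx V.valuation (Phi ω p q) (a ^ 2 * b ^ 2 * e ^ 5) := by
  let _ : Algebra ℂ V := ((algebraMap ℂ L).codRestrict V hV).toAlgebra
  let f : V →ₐ[ℂ] L := ⟨V.subtype, fun _ => rfl⟩
  obtain ⟨i, j, p', a1, a2, a3, a4, a5, a6⟩ := exists_frame V (p := p) fun h0 => hne (by
    rw [h0]; ext; simp [wd])
  obtain ⟨k, l, q', b1, b2, b3, b4, b5, b6⟩ := exists_frame V (p := q) fun h0 => hne (by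
    rw [h0]; ext; simp [wd])
  have key : ∀ {p : Fin 2 → Fin 6 → L} {p' : Fin 2 → Fin 6 → V} {i j : Fin 6},
      wd (p 0) (p 1) (i, j) ≠ 0 → w ω (p 0) (p 1) = 0 →
      (∀ l, p l = p l i • (V.subtype ∘ p' 0) + p l j • (V.subtype ∘ p' 1)) →
      wd (p 0) (p 1) = wd (p 0) (p 1) (i, j) • (V.subtype ∘ wd (p' 0) (p' 1)) ∧
        w ω (p' 0) (p' 1) = 0 := by
    intro p p' i j h0 h1 h2
    constructor
    · conv_lhs => rw [h2 0, h2 1, wd_comb, ← map_wd]
      rfl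
    · rw [h2 0, h2 1] at h1
      simp only [map_add, map_smul, LinearMap.add_apply, LinearMap.smul_apply, hs.self,
        hs.swap (V.subtype ∘ p' 0) (V.subtype ∘ p' 1)] at h1
      have h3 : wd (p 0) (p 1) (i, j) • (f ∘ w ω (p' 0) (p' 1)) = 0 := by
        rw [map_w, wd]
        change _ • w ω (V.subtype ∘ p' 0) (V.subtype ∘ p' 1) = 0
        linear_combination (norm := module) h1
      exact funext fun a => Subtype.ext (congrFun ((smul_eq_zero.1 h3).resolve_left h0) a)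
  obtain ⟨c1, c2⟩ := key a5 hp a6
  obtain ⟨d1, d2⟩ := key b5 hq b6
  set A := wd (p 0) (p 1) (i, j)
  set B := wd (q 0) (q 1) (k, l)
  have e1 : wd (wd (p 0) (p 1)) (wd (q 0) (q 1)) =
      (A * B) • (V.subtype ∘ wd (wd (p' 0) (p' 1)) (wd (q' 0) (q' 1))) := by
    rw [c1, d1, wd_smul, ← map_wd]
  have e2 : Phi ω p q = (A ^ 2 * B ^ 2) • (V.subtype ∘ Phi ω p' q') := by
    conv_lhs => rw [funext a6, funext b6]
    exact (Phi_comb (fun l => V.subtype ∘ p' l) (fun l => V.subtype ∘ q' l) _ _ _ _).trans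
      (congrArg _ (map_Phi f p' q').symm)
  have hP : Prim (wd (p' 0) (p' 1)) := ⟨(i, j), by simp [wd, a1, a2, a3, a4]⟩
  have hQ : Prim (wd (q' 0) (q' 1)) := ⟨(k, l), by simp [wd, b1, b2, b3, b4]⟩
  obtain ⟨e, ⟨R, r1, r2⟩, Ψ, s1, s2⟩ := core hs hl hc a1 a2 a3 a4 c2 d2 hQ fun h0 => hne (by
    rw [e1, h0]; ext; simp)
  have m : ∀ {ι : Type} (c : V) (s : ι → V), V.subtype ∘ (c • s) = (c : L) • (V.subtype ∘ s) :=
    fun _ _ => rfl
  refine ⟨_, _, V.valuation e, c1 ▸ mx_prim V hP A, d1 ▸ mx_prim V hQ B, ?_, ?_⟩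
  · rw [e1, r2, m, smul_smul, ← map_mul, ← map_mul]
    exact mx_prim V r1 _
  · rw [e2, s2, m, smul_smul, ← map_pow, ← map_pow, ← map_pow, ← map_mul, ← map_mul]
    exact mx_prim V s1 _

end val

end Crest.Agent.X262.Pf19
end
end

-- ▼ part X262/Pf19/Line
section

/-!
# Row 262, PF (helper19), part 3: the line attached to two planes

* `lp c`, `lq c`   : the two points of the line orthogonal to four vectors; `wd_lp`;
* `li_four`, `li_c4` : two planes of the surface span a four-dimensional space;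
* `iso_eq`         : a pencil of forms of rank four has only one isotropic space of dimension four;
* `par_of_line`    : the line determines the two planes.
-/

set_option autoImplicit false

open Module

noncomputable section

namespace Crest.Agent.X262.Pf19

variable {ω : Om} {K : Type} [Field K]

section dt

variable {A : Type} [CommRing A] {n : ℕ} {u v : Fin (n + 2) → A} {c : Fin n → Fin (n + 2) → A}

theorem dt_self (u : Fin (n + 2) → A) : dt A u u c = 0 :=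
  Matrix.det_zero_of_row_eq (i := 0) (j := Fin.succ 0) (Fin.succ_ne_zero _).symm rfl

theorem dt_left (i : Fin n) (v : Fin (n + 2) → A) : dt A (c i) v c = 0 :=
  Matrix.det_zero_of_row_eq (i := 0) (j := i.succ.succ) (Fin.succ_ne_zero _).symm rfl

theorem dt_swap (u v : Fin (n + 2) → A) : dt A v u c = -dt A u v c := by
  have h := dt_self (c := c) (u + v)
  simp only [map_add, LinearMap.add_apply, AlternatingMap.add_apply, dt_self] at h
  linear_combination h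

theorem dt_right (i : Fin n) (u : Fin (n + 2) → A) : dt A u (c i) c = 0 := by
  rw [dt_swap, dt_left, neg_zero]

/-- the determinant as a bilinear form -/
def bl (c : Fin n → Fin (n + 2) → A) : (Fin (n + 2) → A) →ₗ[A] (Fin (n + 2) → A) →ₗ[A] A :=
  (dt A).compr₂
    { toFun := fun f => f c, map_add' := fun _ _ => rfl, map_smul' := fun _ _ => rfl }

theorem dt_eq_bl (u v : Fin (n + 2) → A) : dt A u v c = bl c u v := rfl

theorem dt_left_sum (u v : Fin (n + 2) → A) : dt A u v c = ∑ a, u a * dt A (Pi.single a 1) v c := by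
  conv_lhs => rw [dt_eq_bl, pi_eq_sum_univ' u]
  simp only [map_sum, map_smul, LinearMap.sum_apply, LinearMap.smul_apply, smul_eq_mul]
  rfl

theorem dt_perm (σ : Equiv.Perm (Fin (n + 2))) (u v : Fin (n + 2) → A) :
    dt A (u ∘ σ) (v ∘ σ) (fun i => c i ∘ σ) = (Equiv.Perm.sign σ : ℤ) * dt A u v c := by
  rw [dt_apply, dt_apply, ← Matrix.det_permute']
  congr 1
  ext i j
  refine Fin.cases rfl (fun i => Fin.cases rfl (fun i => rfl) i) i

end dt

theorem exists_coord {n : ℕ} {u v : Fin (n + 2) → K} {c : Fin n → Fin (n + 2) → K}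
    (h : dt K u v c ≠ 0) (x : Fin (n + 2) → K) :
    ∃ (s t : K) (g : Fin n → K), x = s • u + t • v + ∑ i, g i • c i := by
  obtain ⟨g, hg⟩ := Matrix.vecMul_surjective_iff_isUnit.2
    ((Matrix.isUnit_iff_isUnit_det (Matrix.of (Matrix.vecCons u (Matrix.vecCons v c)))).2
      (Ne.isUnit h)) x
  refine ⟨g 0, g (Fin.succ 0), fun i => g i.succ.succ, ?_⟩
  rw [← hg, add_assoc]
  change Matrix.vecMul g _ = _
  rw [Matrix.vecMul_eq_sum, Fin.sum_univ_succ, Fin.sum_univ_succ]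
  rfl

theorem dt_plk {n : ℕ} {u v : Fin (n + 2) → K} {c : Fin n → Fin (n + 2) → K} (h : dt K u v c ≠ 0)
    (x y : Fin (n + 2) → K) :
    dt K x v c * dt K u y c - dt K y v c * dt K u x c = dt K x y c * dt K u v c := by
  obtain ⟨s, t, g, rfl⟩ := exists_coord h x
  obtain ⟨s', t', g', rfl⟩ := exists_coord h y
  simp only [dt_eq_bl]
  simp only [map_add, map_smul, map_sum, LinearMap.add_apply, LinearMap.smul_apply,
    LinearMap.sum_apply]
  simp only [← dt_eq_bl, dt_self, dt_left, dt_right, dt_swap u v, smul_eq_mul, mul_zero,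
    Finset.sum_const_zero, add_zero]
  ring

theorem mn_plk {n : ℕ} {c : Fin n → Fin (n + 2) → K} {i j : Fin (n + 2)} (h : mn c (i, j) ≠ 0)
    (ab : Fin (n + 2) × Fin (n + 2)) :
    mn c (ab.1, j) * mn c (i, ab.2) - mn c (ab.2, j) * mn c (i, ab.1) = mn c ab * mn c (i, j) :=
  dt_plk h _ _

theorem mn_dot {n : ℕ} (c : Fin n → Fin (n + 2) → K) (i : Fin n) (j : Fin (n + 2)) (d : K) :
    (fun a => mn c (a, j) / d) ⬝ᵥ c i = 0 := by
  have h := (dt_left_sum (c := c) (c i) (Pi.single j 1)).symm.trans (dt_left i _)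
  simp only [dotProduct, mn, mul_comm _ (c i _), ← mul_div_assoc, ← Finset.sum_div, h, zero_div]

theorem mn_dot' {n : ℕ} (c : Fin n → Fin (n + 2) → K) (i : Fin n) (j : Fin (n + 2)) (d : K) :
    (fun a => mn c (j, a) / d) ⬝ᵥ c i = 0 := by
  rw [← mn_dot c i j (-d)]
  congr 1
  funext a
  rw [mn, dt_swap, neg_div, div_neg]
  rfl

/-- the first point of the line -/
def lp (c : Fin 4 → Fin 6 → K) (j : Fin 6) : K := mn (n := 4) c (j, 1) / mn (n := 4) c (0, 1)

/-- the second point of the line -/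
def lq (c : Fin 4 → Fin 6 → K) (j : Fin 6) : K := mn (n := 4) c (0, j) / mn (n := 4) c (0, 1)

theorem lp_dot (c : Fin 4 → Fin 6 → K) (i : Fin 4) : lp c ⬝ᵥ c i = 0 := mn_dot (n := 4) c i 1 _

theorem lq_dot (c : Fin 4 → Fin 6 → K) (i : Fin 4) : lq c ⬝ᵥ c i = 0 := mn_dot' (n := 4) c i 0 _

theorem wd_lp {c : Fin 4 → Fin 6 → K} (h : mn (n := 4) c (0, 1) ≠ 0) :
    wd (lp c) (lq c) = (mn (n := 4) c (0, 1))⁻¹ • mn (n := 4) c := by
  ext ab
  have h1 := mn_plk (n := 4) h ab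
  simp only [wd, lp, lq, Pi.smul_apply, smul_eq_mul]
  field_simp
  linear_combination h1

theorem exists_det {a b : K} (h : ¬(a = 0 ∧ b = 0)) : ∃ a' b', a * b' - b * a' ≠ 0 := by
  by_cases h0 : a = 0
  · exact ⟨1, 0, fun h2 => h ⟨h0, by linear_combination -h2⟩⟩
  · exact ⟨0, 1, by simpa using h0⟩

variable [Algebra ℂ K] {p q p' q' : Fin 2 → Fin 6 → K}

theorem li_four (hs : Skew ω) (hl : NoLine K ω) (hp : w ω (p 0) (p 1) = 0)
    (hq : w ω (q 0) (q 1) = 0) (hne : wd (wd (p 0) (p 1)) (wd (q 0) (q 1)) ≠ 0) :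
    LinearIndependent K ![p 0, p 1, q 0, q 1] := by
  have hP : wd (p 0) (p 1) ≠ 0 := fun h0 => hne (by rw [h0]; ext; simp [wd])
  have hQ : wd (q 0) (q 1) ≠ 0 := fun h0 => hne (by rw [h0]; ext; simp [wd])
  refine Fintype.linearIndependent_iff.2 fun g hg => ?_
  simp only [Fin.sum_univ_four, Matrix.cons_val] at hg
  have h1 : g 0 = 0 ∧ g 1 = 0 := by
    by_contra h1
    have h2 : ¬(g 2 = 0 ∧ g 3 = 0) := fun h2 => h1 (wd_ne_iff.1 hP _ _ (by simpa [h2] using hg))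
    obtain ⟨a, b, hab⟩ := exists_det h1
    obtain ⟨c, d, hcd⟩ := exists_det h2
    have e : g 0 • p 0 + g 1 • p 1 = (-g 2) • q 0 + (-g 3) • q 1 := by
      linear_combination (norm := module) hg
    refine hl ![g 0 • p 0 + g 1 • p 1, a • p 0 + b • p 1, c • q 0 + d • q 1]
      (by simp [hs.self, hp, hs.swap (p 0) (p 1)])
      (by rw [e]; simp [hs.self, hq, hs.swap (q 0) (q 1)])
      (Fintype.linearIndependent_iff.2 fun t ht => ?_)
    simp only [Fin.sum_univ_three, Matrix.cons_val] at ht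
    obtain ⟨t1, t2⟩ := wd_ne_iff.1 hne (t 1 * (g 0 * b - g 1 * a)) (-(t 2 * (g 2 * d - g 3 * c))) (by
      have e1 := wd_comb (p 0) (p 1) (g 0) (g 1) a b
      have e2 := wd_comb (q 0) (q 1) (-g 2) (-g 3) c d
      rw [← e] at e2
      ext ij
      have a1 := congrFun ht ij.1
      have a2 := congrFun ht ij.2
      have a3 := congrFun e1 ij
      have a4 := congrFun e2 ij
      set x := g 0 • p 0 + g 1 • p 1
      set y := a • p 0 + b • p 1
      set z := c • q 0 + d • q 1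
      simp only [wd, Pi.add_apply, Pi.smul_apply, smul_eq_mul, Pi.zero_apply] at a1 a2 a3 a4 ⊢
      linear_combination x ij.1 * a2 - x ij.2 * a1 - t 1 * a3 - t 2 * a4)
    replace t1 := (mul_eq_zero.1 t1).resolve_right hab
    replace t2 := (mul_eq_zero.1 (neg_eq_zero.1 t2)).resolve_right hcd
    have t0 : t 0 = 0 := by
      rw [t1, t2, zero_smul, zero_smul, add_zero, add_zero] at ht
      exact (smul_eq_zero.1 ht).resolve_right fun h0 => h1 (wd_ne_iff.1 hP _ _ h0)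
    intro i
    fin_cases i
    exacts [t0, t1, t2]
  obtain ⟨h2, h3⟩ := wd_ne_iff.1 hQ (g 2) (g 3) (by simpa [h1] using hg)
  intro i
  fin_cases i
  exacts [h1.1, h1.2, h2, h3]

theorem rel_eq (hc : NoConic K ω) (hk : LinearIndependent K ![p 0, p 1, q 0, q 1])
    (hp : w ω (p 0) (p 1) = 0) (hq : w ω (q 0) (q 1) = 0) {g : Fin 4 → K}
    (hg : ∑ i, g i • c4 ω p q i = 0) : g = 0 := by
  have h := hc.eq_zero hk (β := Pi.single 0 1) (β' := Pi.single 5 1)
    (γ := ![0, g 0, g 1, g 2, g 3, 0]) (m := 0) (n := 5) (by simp [Pi.single_apply, cols, hp])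
    (by simp [Pi.single_apply, cols, hq])
    (by simpa [Fin.sum_univ_six, Fin.sum_univ_four, cols, c4] using hg) (by simp) (by simp)
    (by simp) rfl rfl
  ext i
  fin_cases i
  exacts [congrFun h 1, congrFun h 2, congrFun h 3, congrFun h 4]

theorem li_c4 (hc : NoConic K ω) (hk : LinearIndependent K ![p 0, p 1, q 0, q 1])
    (hp : w ω (p 0) (p 1) = 0) (hq : w ω (q 0) (q 1) = 0) : LinearIndependent K (c4 ω p q) :=
  Fintype.linearIndependent_iff.2 fun _ hg => congrFun (rel_eq hc hk hp hq hg)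

/-- the member of the family as a bilinear form -/
def fm (ω : Om) (z : Fin 6 → K) : (Fin 6 → K) →ₗ[K] (Fin 6 → K) →ₗ[K] K :=
  (w ω).compr₂ (dotProductBilin K K z)

theorem fm_apply (z u v : Fin 6 → K) : fm ω z u v = z ⬝ᵥ w ω u v := rfl

/-- an isotropic subspace -/
def Iso (ω : Om) (z : Fin 6 → K) (U : Submodule K (Fin 6 → K)) : Prop :=
  ∀ u ∈ U, ∀ v ∈ U, fm ω z u v = 0

theorem iso_span (hs : Skew ω) (hp : w ω (p 0) (p 1) = 0) (hq : w ω (q 0) (q 1) = 0)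
    {z : Fin 6 → K} (hz : ∀ i, z ⬝ᵥ c4 ω p q i = 0) :
    Iso ω z (Submodule.span K (Set.range ![p 0, p 1, q 0, q 1])) := by
  intro u hu v hv
  obtain ⟨a, rfl⟩ := (Submodule.mem_span_range_iff_exists_fun K).1 hu
  obtain ⟨b, rfl⟩ := (Submodule.mem_span_range_iff_exists_fun K).1 hv
  have h0 : z ⬝ᵥ w ω (p 0) (q 0) = 0 := hz 0
  have h1 : z ⬝ᵥ w ω (p 0) (q 1) = 0 := hz 1
  have h2 : z ⬝ᵥ w ω (p 1) (q 0) = 0 := hz 2
  have h3 : z ⬝ᵥ w ω (p 1) (q 1) = 0 := hz 3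
  simp [Fin.sum_univ_four, fm_apply, hs.self, hp, hq, h0, h1, h2, h3, hs.swap (p 0) (p 1),
    hs.swap (q 0) (q 1), hs.swap (p 0) (q 0), hs.swap (p 0) (q 1), hs.swap (p 1) (q 0),
    hs.swap (p 1) (q 1)]

omit [Algebra ℂ K] in
/-- the kernel of a form is large when a large space is orthogonal to a large space -/
theorem exists_ker {V : Type} [AddCommGroup V] [Module K V] [FiniteDimensional K V]
    (B : V →ₗ[K] V →ₗ[K] K) {A U : Submodule K V} (h : ∀ a ∈ A, ∀ u ∈ U, B a u = 0) {n : ℕ}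
    (hn : n + finrank K V ≤ finrank K A + finrank K U) :
    ∃ u : Fin n → V, LinearIndependent K u ∧ ∀ l v, B (u l) v = 0 := by
  have h1 := (B.domRestrict A).finrank_range_add_finrank_ker
  have h3 : finrank K (LinearMap.range (B.domRestrict A)) ≤ finrank K U.dualAnnihilator :=
    Submodule.finrank_mono (by
      rintro _ ⟨a, rfl⟩
      exact (Submodule.mem_dualAnnihilator _).2 (h a a.2))
  have h4 := Subspace.finrank_add_finrank_dualAnnihilator_eq U
  obtain ⟨u, hu⟩ := exists_linearIndependent_of_le_finrank (R := K)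
    (M := LinearMap.ker (B.domRestrict A)) (n := n) (by omega)
  exact ⟨fun l => (u l).1.1, (hu.map' (A.subtype ∘ₗ Submodule.subtype _)
    (LinearMap.ker_eq_bot.2 (Subtype.val_injective.comp Subtype.val_injective))),
    fun l v => LinearMap.congr_fun (u l).2 v⟩

theorem Iso.cub (hs : Skew ω) {z : Fin 6 → K} {U : Submodule K (Fin 6 → K)} (h : Iso ω z U)
    (hU : finrank K U = 4) : MvPolynomial.aeval z (cub ω) = 0 := by
  obtain ⟨u, h1, h2⟩ := exists_ker (fm ω z) h (n := 1) (by simp [hU])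
  exact aeval_cub_eq_zero hs (h1.ne_zero 0) (h2 0)

omit [Algebra ℂ K] in
theorem exists_sing [IsAlgClosed K] {V W : Type} [AddCommGroup V] [Module K V] [AddCommGroup W]
    [Module K W] [FiniteDimensional K V] [FiniteDimensional K W] [Nontrivial V]
    (h : finrank K V = finrank K W) (f g : V →ₗ[K] W) :
    ∃ (s t : K) (u : V), ¬(s = 0 ∧ t = 0) ∧ u ≠ 0 ∧ s • f u + t • g u = 0 := by
  by_cases hg : Function.Injective g
  · let e := g.linearEquivOfInjective hg h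
    obtain ⟨c, hc⟩ := Module.End.exists_eigenvalue (e.symm.toLinearMap ∘ₗ f)
    obtain ⟨u, hu⟩ := hc.exists_hasEigenvector
    refine ⟨1, -c, u, by simp, hu.2, ?_⟩
    have h1 : f u = e (c • u) := e.symm_apply_eq.1 hu.apply_eq_smul
    rw [h1, map_smul]
    simp [e]
  · obtain ⟨u, h1, h2⟩ := (Submodule.ne_bot_iff _).1 (mt LinearMap.ker_eq_bot.1 hg)
    exact ⟨0, 1, u, by simp, h2, by simpa using h1⟩

theorem iso_eq [IsAlgClosed K] (hr : NoRk2 K ω) {x y : Fin 6 → K} (hxy : wd x y ≠ 0)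
    {U U' : Submodule K (Fin 6 → K)} (h1 : finrank K U = 4) (h2 : finrank K U' = 4)
    (hx : Iso ω x U) (hy : Iso ω y U) (hx' : Iso ω x U') (hy' : Iso ω y U') : U = U' := by
  by_contra hne
  obtain ⟨C, c1, c2⟩ := IsModularLattice.exists_disjoint_and_sup_eq (inf_le_left : U ⊓ U' ≤ U)
  obtain ⟨C', c3, c4⟩ := IsModularLattice.exists_disjoint_and_sup_eq (inf_le_right : U ⊓ U' ≤ U')
  have d1 := Submodule.finrank_sup_add_finrank_inf_eq (U ⊓ U') C
  have d2 := Submodule.finrank_sup_add_finrank_inf_eq (U ⊓ U') C'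
  have d3 := Submodule.finrank_sup_add_finrank_inf_eq U U'
  rw [c2, c1.eq_bot, finrank_bot] at d1
  rw [c4, c3.eq_bot, finrank_bot] at d2
  have d4 : finrank K (U ⊓ U' : Submodule K _) < 4 := by
    by_contra! d4
    exact hne ((Submodule.eq_of_le_of_finrank_le inf_le_left (h1 ▸ d4)).symm.trans
      (Submodule.eq_of_le_of_finrank_le inf_le_right (h2 ▸ d4)))
  have : Nontrivial C := Module.nontrivial_of_finrank_pos (R := K) (by omega)
  obtain ⟨s, t, u, hst, hu, e⟩ := exists_sing (V := C) (W := Dual K C')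
    (by rw [Subspace.dual_finrank_eq]; omega) ((fm ω x).domRestrict₁₂ C C')
    ((fm ω y).domRestrict₁₂ C C')
  have z : ∀ a b, fm ω (s • x + t • y) a b = s * fm ω x a b + t * fm ω y a b := fun a b => by
    simp [fm_apply]
  have hC : C ≤ U := c2 ▸ le_sup_right
  obtain ⟨v, hv, h3⟩ := exists_ker (fm ω (s • x + t • y)) (A := U ⊓ U' ⊔ Submodule.span K {u.1})
    (U := U ⊔ U') (n := 3) (fun a ha b hb => by
      obtain ⟨a, a1, a', ha', rfl⟩ := Submodule.mem_sup.1 ha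
      obtain ⟨c, rfl⟩ := Submodule.mem_span_singleton.1 ha'
      obtain ⟨b, a2, b', a3, rfl⟩ := Submodule.mem_sup.1 hb
      obtain ⟨b1, a4, b2, a5, rfl⟩ := Submodule.mem_sup.1 (c4.ge a3)
      have e1 : s * fm ω x u b2 + t * fm ω y u b2 = 0 := LinearMap.congr_fun e ⟨b2, a5⟩
      have e2 : fm ω (s • x + t • y) a (b + (b1 + b2)) = 0 := by
        rw [map_add, z, z, hx a a1.1 b a2, hy a a1.1 b a2, hx' a a1.2 _ a3, hy' a a1.2 _ a3]
        simp
      rw [LinearMap.map_add₂, LinearMap.map_smul₂, e2, map_add, map_add, z, z, z,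
        hx u (hC u.2) b a2, hy u (hC u.2) b a2, hx u (hC u.2) b1 a4.1, hy u (hC u.2) b1 a4.1, e1]
      simp) (by
      rw [Submodule.finrank_sup_span_singleton fun h =>
        hu (Subtype.ext (Submodule.disjoint_def.1 c1 _ h u.2))]
      simp only [finrank_fintype_fun_eq_card, Fintype.card_fin]
      omega)
  exact hr _ (fun h0 => hst (wd_ne_iff.1 hxy s t h0)) v h3 hv

theorem par_of_mem (hs : Skew ω) (hc : NoConic K ω)
    (hk : LinearIndependent K ![p 0, p 1, q 0, q 1]) (hp : w ω (p 0) (p 1) = 0)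
    (hq : w ω (q 0) (q 1) = 0) {u v : Fin 6 → K}
    (hu : u ∈ Submodule.span K (Set.range ![p 0, p 1, q 0, q 1]))
    (hv : v ∈ Submodule.span K (Set.range ![p 0, p 1, q 0, q 1])) (h : w ω u v = 0) :
    (∃ c : K, wd u v = c • wd (p 0) (p 1)) ∨ ∃ c : K, wd u v = c • wd (q 0) (q 1) := by
  obtain ⟨a, rfl⟩ := (Submodule.mem_span_range_iff_exists_fun K).1 hu
  obtain ⟨b, rfl⟩ := (Submodule.mem_span_range_iff_exists_fun K).1 hv
  have h1 := rel_eq hc hk hp hq (g := ![wd a b (0, 2), wd a b (0, 3), wd a b (1, 2), wd a b (1, 3)])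
    (by
      rw [← h]
      simp [Fin.sum_univ_four, c4, wd, hs.self, hp, hq, hs.swap (p 0) (p 1), hs.swap (q 0) (q 1),
        hs.swap (p 0) (q 0), hs.swap (p 0) (q 1), hs.swap (p 1) (q 0), hs.swap (p 1) (q 1)]
      module)
  have e0 : a 0 * b 2 - a 2 * b 0 = 0 := congrFun h1 0
  have e1 : a 0 * b 3 - a 3 * b 0 = 0 := congrFun h1 1
  have e2 : a 1 * b 2 - a 2 * b 1 = 0 := congrFun h1 2
  have e3 : a 1 * b 3 - a 3 * b 1 = 0 := congrFun h1 3
  have e : wd (∑ i, a i • ![p 0, p 1, q 0, q 1] i) (∑ i, b i • ![p 0, p 1, q 0, q 1] i) =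
      (a 0 * b 1 - a 1 * b 0) • wd (p 0) (p 1) + (a 2 * b 3 - a 3 * b 2) • wd (q 0) (q 1) := by
    ext ij
    simp only [Fin.sum_univ_four, wd, Pi.add_apply, Pi.smul_apply, smul_eq_mul, Matrix.cons_val]
    linear_combination (norm := (simp only [wd]; ring1)) wd (p 0) (q 0) ij * e0 +
      wd (p 0) (q 1) ij * e1 + wd (p 1) (q 0) ij * e2 + wd (p 1) (q 1) ij * e3
  rcases mul_eq_zero.1 (show (a 2 * b 3 - a 3 * b 2) * (a 0 * b 1 - a 1 * b 0) = 0 by
    linear_combination (a 1 * b 3 - a 3 * b 1) * e0 - (a 1 * b 2 - a 2 * b 1) * e1) with h0 | h0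
  · exact .inl ⟨_, by rw [e, h0, zero_smul, add_zero]⟩
  · exact .inr ⟨_, by rw [e, h0, zero_smul, zero_add]⟩

/-- **the line determines the two planes** -/
theorem par_of_line [IsAlgClosed K] (hs : Skew ω) (hl : NoLine K ω) (hc : NoConic K ω)
    (hr : NoRk2 K ω) (hp : w ω (p 0) (p 1) = 0) (hq : w ω (q 0) (q 1) = 0)
    (hne : wd (wd (p 0) (p 1)) (wd (q 0) (q 1)) ≠ 0) (hp' : w ω (p' 0) (p' 1) = 0)
    (hq' : w ω (q' 0) (q' 1) = 0) (hne' : wd (wd (p' 0) (p' 1)) (wd (q' 0) (q' 1)) ≠ 0)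
    {x y : Fin 6 → K} (hxy : wd x y ≠ 0) (hx : ∀ i, x ⬝ᵥ c4 ω p q i = 0)
    (hy : ∀ i, y ⬝ᵥ c4 ω p q i = 0) (hx' : ∀ i, x ⬝ᵥ c4 ω p' q' i = 0)
    (hy' : ∀ i, y ⬝ᵥ c4 ω p' q' i = 0) : ∃ c d : K,
      (wd (p' 0) (p' 1) = c • wd (p 0) (p 1) ∧ wd (q' 0) (q' 1) = d • wd (q 0) (q 1)) ∨
      (wd (p' 0) (p' 1) = c • wd (q 0) (q 1) ∧ wd (q' 0) (q' 1) = d • wd (p 0) (p 1)) := by
  have hk := li_four hs hl hp hq hne
  have e := iso_eq hr hxy (by simpa using finrank_span_eq_card hk)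
    (by simpa using finrank_span_eq_card (li_four hs hl hp' hq' hne')) (iso_span hs hp hq hx)
    (iso_span hs hp hq hy) (iso_span hs hp' hq' hx') (iso_span hs hp' hq' hy')
  have m : ∀ i, ![p' 0, p' 1, q' 0, q' 1] i ∈ Submodule.span K (Set.range ![p 0, p 1, q 0, q 1]) :=
    fun i => e ▸ Submodule.subset_span ⟨i, rfl⟩
  have z : ∀ (P : Fin 6 × Fin 6 → K) (c d : K), wd (p' 0) (p' 1) = c • P →
      wd (q' 0) (q' 1) ≠ d • P := fun P c d e1 e2 => hne' (by
    rw [e1, e2, wd_smul]; ext; simp [wd, mul_comm])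
  rcases par_of_mem hs hc hk hp hq (m 0) (m 1) hp' with ⟨c, h1⟩ | ⟨c, h1⟩ <;>
    rcases par_of_mem hs hc hk hp hq (m 2) (m 3) hq' with ⟨d, h2⟩ | ⟨d, h2⟩
  exacts [(z _ c d h1 h2).elim, ⟨c, d, .inl ⟨h1, h2⟩⟩, ⟨c, d, .inr ⟨h1, h2⟩⟩, (z _ c d h1 h2).elim]

theorem Phi_swap {A : Type} [CommRing A] [Algebra ℂ A] (hs : Skew ω) (p q : Fin 2 → Fin 6 → A) :
    Phi ω q p = -Phi ω p q := by
  have h := mn_mul (n := 4) !![-1, 0, 0, 0; 0, 0, -1, 0; 0, -1, 0, 0; 0, 0, 0, -1] (c4 ω p q)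
  rw [Phi, Phi, ← neg_one_smul A (mn _)]
  convert h using 2
  · funext m
    fin_cases m <;> simp [c4, Fin.sum_univ_four] <;> exact hs.swap _ _
  · simp [Matrix.det_succ_row_zero, Fin.sum_univ_succ, Fin.succAbove]

end Crest.Agent.X262.Pf19
end
end

-- ▼ part X262/Pf19/Main

/-!
# Row 262, PF (helper19), part 4: the map of Beauville and Donagi

* `genPt`        : the line of `Lines G F L` is the generic point of the chart;
* `exists_lines` : the variety of lines of the Pfaffian cubic is birational to the symmetric square;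
* `pfStmt`       : `St91.PfStmt`.
-/

set_option autoImplicit false

open MvPolynomial

noncomputable section

namespace Crest.Agent.X262.Pf19

open Crest.AlgGeometry Crest.Agent.X277 Crest.Agent.X277.BD
open Crest.Agent.X262.Top (SmCub Lines)
open Crest.Agent.X262.St91 (OnS omI I2 ln dgl PfStmt)
open Crest.Agent.X262.Rig38 (pv qv GenPt)
open Crest.Agent.R274.Prod1_134 (IsPF)

variable {ω : Om} {F L : Type} [Field F] [Algebra ℂ F] [Field L] [Algebra ℂ L]

theorem ext_of_gen {s : Set F} (hs : IntermediateField.adjoin ℂ s = ⊤) {f g : F →ₐ[ℂ] L}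
    (h : ∀ x ∈ s, f x = g x) : f = g := AlgHom.ext fun x =>
  IntermediateField.adjoin_induction ℂ (p := fun x _ => f x = g x) h (fun c => by simp)
    (fun _ _ _ _ h1 h2 => by rw [map_add, map_add, h1, h2])
    (fun _ _ h1 => by rw [map_inv₀, map_inv₀, h1])
    (fun _ _ _ _ h1 h2 => by rw [map_mul, map_mul, h1, h2]) (hs ▸ IntermediateField.mem_top (x := x))

theorem ext_of_par {ι : Type} {P : ι → F}
    (hs : IntermediateField.adjoin ℂ {x | ∃ i j, x = P i / P j} = ⊤) {f g : F →ₐ[ℂ] L} {c : L}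
    (hc : c ≠ 0) (h : f ∘ P = c • (g ∘ P)) : f = g := ext_of_gen hs (by
  rintro _ ⟨i, j, rfl⟩
  have h1 : ∀ i, f (P i) = c * g (P i) := congrFun h
  rw [map_div₀, map_div₀, h1, h1, mul_div_mul_left _ _ hc])

theorem mem_of_emb (K : IntermediateField ℂ L) (τ : L →ₐ[ℂ] L)
    (key : ∀ σ : L →ₐ[K] AlgebraicClosure L,
      σ.restrictScalars ℂ = IsScalarTower.toAlgHom ℂ L _ ∨
        σ.restrictScalars ℂ = (IsScalarTower.toAlgHom ℂ L _).comp τ) {x : L} (hx : τ x = x) :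
    x ∈ K := by
  have halg : Algebra.IsAlgebraic K L := by
    by_contra hn
    have := Algebra.transcendental_iff_not_isAlgebraic.2 hn
    have : Finite (Field.Emb K L) := Set.finite_univ_iff.1
      ((((Set.finite_singleton _).insert _).preimage
        (AlgHom.restrictScalars_injective ℂ).injOn).subset fun σ _ => key σ)
    exact not_finite (Field.Emb K L)
  have h1 : (minpoly K x).rootSet (AlgebraicClosure L) ⊆ {algebraMap L _ x} := by
    rw [← Algebra.IsAlgebraic.range_eval_eq_rootSet_minpoly]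
    rintro _ ⟨σ, rfl⟩
    rcases key σ with h | h
    · exact DFunLike.congr_fun h x
    · exact (DFunLike.congr_fun h x).trans (congrArg (algebraMap L _) hx)
  have h2 := Polynomial.card_rootSet_eq_natDegree (K := AlgebraicClosure L)
    (Algebra.IsSeparable.isSeparable K x) (IsAlgClosed.splits _)
  have h3 := minpoly.natDegree_pos (Algebra.IsIntegral.isIntegral (R := K) x)
  have h4 := Set.card_le_card h1
  rw [h2, Set.card_singleton] at h4
  obtain ⟨y, rfl⟩ := minpoly.natDegree_eq_one_iff.1 (le_antisymm h4 h3)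
  exact y.2

/-- a frame of the plane -/
theorem exists_fr (hs : Skew ω) {P : I2 → F} (hP : OnS (omI ω) P) :
    ∃ f : Fin 2 → Fin 6 → F, wd (f 0) (f 1) = P ∧ w ω (f 0) (f 1) = 0 := by
  obtain ⟨⟨i, j⟩, h0⟩ := Function.ne_iff.1 hP.ne
  have e : wd (fun k => P (i, k) / P (i, j)) (fun k => P (j, k)) = P := by
    ext ⟨k, l⟩
    have h0' : P (i, j) ≠ 0 := h0
    simp only [wd]
    field_simp
    linear_combination -hP.plk i j k l
  refine ⟨![_, _], e, ?_⟩
  have key : ∀ u v : Fin 6 → F, ln (omI ω) (wd u v) = w ω u v - w ω v u := fun u v => by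
    ext a
    simp only [ln, omI, wd, Fintype.sum_prod_type, Pi.sub_apply, w_apply, Algebra.smul_def,
      ← Finset.sum_sub_distrib, mul_sub, mul_comm (v _)]
  have h1 := key (fun k => P (i, k) / P (i, j)) fun k => P (j, k)
  rw [e, hP.lin, hs.swap (fun k => P (i, k) / P (i, j)), sub_neg_eq_add, ← two_smul ℂ] at h1
  exact (smul_eq_zero.1 h1.symm).resolve_left two_ne_zero

theorem on_chart {G : MvPolynomial (Fin 6) ℂ} {a : Fin 8 → L}
    (h : ∀ s t : L, aeval (s • pv a + t • qv a) G = 0) : ∀ r ∈ fanoChartIdeal G, aeval a r = 0 := by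
  have : CharZero L := charZero_of_injective_algebraMap (algebraMap ℂ L).injective
  have key : map (aeval a : MvPolynomial (Fin 8) ℂ →ₐ[ℂ] L).toRingHom (lineSubst G) = 0 :=
    MvPolynomial.funext fun x => by
      rw [map_zero, ← h (x 0) (x 1), lineSubst]
      refine (comp_aeval_apply (R := ℂ) linePoint
        ((aeval x : MvPolynomial (Fin 2) L →ₐ[L] L).restrictScalars ℂ |>.comp
          (mapAlgHom (aeval a))) G).trans ?_
      congr 2
      funext l
      fin_cases l <;> simp [linePoint, pv, qv]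
  intro r hr
  refine (Ideal.span_le.2 ?_ : _ ≤ RingHom.ker (aeval a).toRingHom) hr
  rintro _ ⟨m, rfl⟩
  exact (coeff_map _ _ m).symm.trans (by rw [key, coeff_zero])

/-- the line is the generic point of the chart -/
theorem genPt {G : MvPolynomial (Fin 6) ℂ} (hG : SmCub G) (Λ : Lines G F L) : GenPt G Λ.a := by
  have := Fano21.chart_isDomain hG.1 hG.2
  have := Brg.Lines.isAlgebraic_of_fix Λ.inv fun x => (Λ.fix x).1
  have h := Brg.Lines.inj_of_trdeg (Ideal.Quotient.liftₐ (fanoChartIdeal G) (aeval Λ.a) Λ.on)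
    (d := 4) (Fano21.chart_dim hG.1 hG.2) (by
      rw [Brg.Lines.adjoin_lift, Brg.Lines.trdeg_of_isAlgebraic, Λ.dim]
      rfl)
  exact fun r => ⟨fun h0 => Ideal.Quotient.eq_zero_iff_mem.1 (h (h0.trans (map_zero _).symm)),
    Λ.on r⟩

theorem mn_self {A : Type} [CommRing A] {n : ℕ} (c : Fin n → Fin (n + 2) → A) (i : Fin (n + 2)) :
    mn c (i, i) = 0 := dt_self _

theorem mn_perm {A : Type} [CommRing A] {n : ℕ} (c : Fin n → Fin (n + 2) → A)
    (σ : Equiv.Perm (Fin (n + 2))) (a b : Fin (n + 2)) :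
    mn (fun i => c i ∘ σ) (a, b) = (Equiv.Perm.sign σ : ℤ) * mn c (σ a, σ b) := by
  refine Eq.trans ?_ (dt_perm σ _ _)
  have h : ∀ a, (Pi.single (σ a) 1 : Fin (n + 2) → A) ∘ σ = Pi.single a 1 := fun a => by
    ext i
    simp [Pi.single_apply]
  rw [h, h]
  rfl

theorem alg_wd {A B ι : Type} [CommRing A] [Algebra ℂ A] [CommRing B] [Algebra ℂ B]
    (σ : A →ₐ[ℂ] B) (u v : ι → A) : wd (σ ∘ u) (σ ∘ v) = σ ∘ wd u v :=
  (map_wd σ.toRingHom u v).symm

/-- the chart coordinates -/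
def crd (c : Fin 4 → Fin 6 → L) : Fin 8 → L :=
  ![lp c 2, lp c 3, lp c 4, lp c 5, lq c 2, lq c 3, lq c 4, lq c 5]

omit [Algebra ℂ L] in
theorem pv_crd {c : Fin 4 → Fin 6 → L} (h : mn (n := 4) c (0, 1) ≠ 0) :
    pv (crd c) = lp c ∧ qv (crd c) = lq c := by
  have h0 := mn_self (n := 4) c
  constructor <;> funext l <;> fin_cases l
  exacts [(div_self h).symm, (div_eq_zero_iff.2 (.inl (h0 1))).symm, rfl, rfl, rfl, rfl,
    (div_eq_zero_iff.2 (.inl (h0 0))).symm, (div_self h).symm, rfl, rfl, rfl, rfl]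

theorem map_dot {A B : Type} [CommRing A] [Algebra ℂ A] [CommRing B] [Algebra ℂ B] (σ : A →ₐ[ℂ] B)
    {x : Fin 6 → A} {p q : Fin 2 → Fin 6 → A} (h : ∀ i, x ⬝ᵥ c4 ω p q i = 0) (i : Fin 4) :
    (σ ∘ x) ⬝ᵥ c4 ω (fun l => σ ∘ p l) (fun l => σ ∘ q l) i = 0 := by
  rw [← map_zero σ, ← h i]
  refine Eq.trans ?_ (RingHom.map_dotProduct σ.toRingHom _ _).symm
  congr 1
  fin_cases i <;> exact (map_w σ _ _).symm

section main

variable {f : Fin 2 → Fin 6 → F} {ι : F →ₐ[ℂ] L} {τ : L →ₐ[ℂ] L}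

theorem wd_ne {Ω : Type} [Field Ω] [Algebra ℂ Ω] {α β : F →ₐ[ℂ] Ω} (h0 : wd (f 0) (f 1) ≠ 0)
    (gen : IntermediateField.adjoin ℂ {x | ∃ i j, x = wd (f 0) (f 1) i / wd (f 0) (f 1) j} = ⊤)
    (h : α ≠ β) : wd (wd (α ∘ f 0) (α ∘ f 1)) (wd (β ∘ f 0) (β ∘ f 1)) ≠ 0 := by
  obtain ⟨i, hi⟩ := Function.ne_iff.1 h0
  have h1 : α (wd (f 0) (f 1) i) ≠ 0 := (map_ne_zero α).2 hi
  have h2 : β (wd (f 0) (f 1) i) ≠ 0 := (map_ne_zero β).2 hi
  refine fun e => h (ext_of_par gen (div_ne_zero h1 h2) (funext fun j => ?_))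
  have h3 := congrFun e (i, j)
  rw [alg_wd, alg_wd] at h3
  change α _ = _ * β _
  field_simp
  exact (sub_eq_zero.1 h3).symm

theorem tb_pf (hd : dim ℂ F = 2) (pf : IsPF ι (τ.comp ι)) :
    Algebra.trdeg ℂ L = 4 ∧ ι ≠ τ.comp ι := by
  have : Module.Finite F Ω[F⁄ℂ] := Module.finite_of_finrank_pos (hd ▸ two_pos :)
  obtain ⟨t, ht⟩ := exists_isTranscendenceBasis ℂ F
  have h1 := ht.cardinalMk_eq_trdeg
  rw [Jet.trdeg_eq, show Module.finrank F Ω[F⁄ℂ] = 2 from hd] at h1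
  obtain ⟨e⟩ := Cardinal.mk_eq_nat_iff.1 h1
  have h2 := Wd.isTB_sum pf (ht.comp_equiv e.symm) (ht.comp_equiv e.symm)
  refine ⟨h2.cardinalMk_eq_trdeg.symm.trans (by simp), fun h => ?_⟩
  exact Sum.inl_ne_inr (h2.1.injective (a₁ := .inl 0) (a₂ := .inr 0) (DFunLike.congr_fun h _))

theorem tau_Phi (hs : Skew ω) (inv : ∀ x, τ (τ x) = x) :
    τ ∘ Phi ω (fun l => ι ∘ f l) (fun l => τ.comp ι ∘ f l) =
      -Phi ω (fun l => ι ∘ f l) (fun l => τ.comp ι ∘ f l) := by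
  rw [map_Phi, ← Phi_swap hs]
  congr 1
  funext l k
  exact inv _

theorem exists_lines (hs : Skew ω) (hr : NoRk2 ℂ ω) (hl : NoLine ℂ ω) (hc : NoConic ℂ ω)
    (h0 : wd (f 0) (f 1) ≠ 0) (hf : w ω (f 0) (f 1) = 0)
    (gen : IntermediateField.adjoin ℂ {x | ∃ i j, x = wd (f 0) (f 1) i / wd (f 0) (f 1) j} = ⊤)
    (hd : dim ℂ F = 2) (pf : IsPF ι (τ.comp ι)) (inv : ∀ x, τ (τ x) = x)
    (h01 : Phi ω (fun l => ι ∘ f l) (fun l => τ.comp ι ∘ f l) (0, 1) ≠ 0) :
    ∃ Λ : Lines (cub ω) F L, Λ.ι = ι ∧ Λ.τ = τ ∧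
      Λ.plk = (Phi ω (fun l => ι ∘ f l) (fun l => τ.comp ι ∘ f l) (0, 1))⁻¹ •
        Phi ω (fun l => ι ∘ f l) (fun l => τ.comp ι ∘ f l) := by
  obtain ⟨d4, hne⟩ := tb_pf hd pf
  have hw : ∀ {Ω : Type} [Field Ω] [Algebra ℂ Ω] (α : F →ₐ[ℂ] Ω), w ω (α ∘ f 0) (α ∘ f 1) = 0 :=
    fun α => by rw [← map_w, hf]; ext; simp
  set c := c4 ω (fun l => ι ∘ f l) (fun l => τ.comp ι ∘ f l) with hcd
  obtain ⟨e1, e2⟩ := pv_crd (c := c) h01
  have hτ : ∀ ab, τ (mn (n := 4) c ab) = -mn (n := 4) c ab := congrFun (tau_Phi hs inv)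
  have hk := li_four (p := fun l => ι ∘ f l) (q := fun l => τ.comp ι ∘ f l) hs (hl.field L)
    (hw _) (hw _) (wd_ne h0 gen hne)
  refine ⟨⟨ι, τ, inv, pf.adjoin_eq, d4, crd c, on_chart fun s t => ?_, fun x => ⟨fun hx => ?_,
    fun hx => ?_⟩⟩, rfl, rfl, ?_⟩
  · refine Iso.cub hs (iso_span (p := fun l => ι ∘ f l) (q := fun l => τ.comp ι ∘ f l) hs (hw _)
      (hw _) fun i => ?_) (by simpa using finrank_span_eq_card hk)
    rw [e1, e2, add_dotProduct, smul_dotProduct, smul_dotProduct, lp_dot, lq_dot]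
    simp
  · refine mem_of_emb _ τ (fun σ => ?_) hx
    set a := IsScalarTower.toAlgHom ℂ L (AlgebraicClosure L)
    set s := σ.restrictScalars ℂ
    have ha : s ∘ crd c = a ∘ crd c := funext fun i =>
      σ.commutes ⟨_, IntermediateField.subset_adjoin _ _ ⟨i, rfl⟩⟩
    have hp : s ∘ lp c = a ∘ lp c := by rw [← e1, Fano21.algHom_pv, Fano21.algHom_pv, ha]
    have hq : s ∘ lq c = a ∘ lq c := by rw [← e2, Fano21.algHom_qv, Fano21.algHom_qv, ha]
    have hn : ∀ b : L →ₐ[ℂ] AlgebraicClosure L, b.comp ι ≠ b.comp (τ.comp ι) := fun b h =>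
      hne (AlgHom.ext fun x => b.injective (DFunLike.congr_fun h x))
    have hc0 : ∀ {α β : F →ₐ[ℂ] AlgebraicClosure L} {c : AlgebraicClosure L},
        wd (α ∘ f 0) (α ∘ f 1) = c • wd (β ∘ f 0) (β ∘ f 1) → α = β := fun {α β c} h => by
      rw [alg_wd, alg_wd] at h
      refine ext_of_par gen (fun c0 => h0 (funext fun i => α.injective ?_)) h
      simpa [c0] using congrFun h i
    obtain ⟨c1, c2, h | h⟩ := par_of_line (p := fun l => a.comp ι ∘ f l)
      (q := fun l => a.comp (τ.comp ι) ∘ f l) (p' := fun l => s.comp ι ∘ f l)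
      (q' := fun l => s.comp (τ.comp ι) ∘ f l) hs (hl.field _) (hc.field _) (hr.field _) (hw _)
      (hw _) (wd_ne h0 gen (hn a)) (hw _) (hw _) (wd_ne h0 gen (hn s)) (x := a ∘ lp c)
      (y := a ∘ lq c) (fun h => one_ne_zero (a.injective (by
        have h1 := congrFun ((alg_wd a _ _).symm.trans h) (0, 1)
        rw [wd_lp h01, Function.comp_apply, Pi.smul_apply, smul_eq_mul,
          inv_mul_cancel₀ (show mn (n := 4) c (0, 1) ≠ 0 from h01)] at h1
        exact h1.trans (map_zero a).symm)))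
      (map_dot a (lp_dot c)) (map_dot a (lq_dot c)) (hp ▸ map_dot s (lp_dot c))
      (hq ▸ map_dot s (lq_dot c))
    · refine .inl (ext_of_gen pf.adjoin_eq ?_)
      rintro _ (⟨x, rfl⟩ | ⟨x, rfl⟩)
      exacts [DFunLike.congr_fun (hc0 h.1) x, DFunLike.congr_fun (hc0 h.2) x]
    · refine .inr (ext_of_gen pf.adjoin_eq ?_)
      rintro _ (⟨x, rfl⟩ | ⟨x, rfl⟩)
      exacts [DFunLike.congr_fun (hc0 h.1) x,
        (DFunLike.congr_fun (hc0 h.2) x).trans (congrArg a (inv _).symm)]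
  · refine IntermediateField.adjoin_induction ℂ (p := fun x _ => τ x = x) ?_ (fun c => by simp)
      (fun _ _ _ _ h1 h2 => by rw [map_add, h1, h2]) (fun _ _ h1 => by rw [map_inv₀, h1])
      (fun _ _ _ _ h1 h2 => by rw [map_mul, h1, h2]) hx
    have h1 : ∀ ab, τ (mn (n := 4) c ab / mn (n := 4) c (0, 1)) =
        mn (n := 4) c ab / mn (n := 4) c (0, 1) := fun ab => by
      rw [map_div₀, hτ, hτ, neg_div_neg_eq]
    rintro _ ⟨i, rfl⟩
    fin_cases i <;> exact h1 _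
  · exact (congrArg₂ wd e1 e2).trans (wd_lp h01)

theorem smCub_perm (σ : Equiv.Perm (Fin 6)) (hG : SmCub (cub ω)) : SmCub (cub (ω ∘ σ)) := by
  have e : cub (ω ∘ σ) = rename σ.symm (cub ω) := by
    rw [← aeval_X_left_apply (rename _ _), aeval_rename, aeval_cub, cub]
    congr 1
    funext i j
    exact Fintype.sum_equiv σ _ _ fun a => by simp
  refine ⟨cub_isHomogeneous _, fun p hp h => ?_⟩
  rw [e, eval_rename] at h
  obtain ⟨i, hi⟩ := hG.2 _ (fun h0 => hp (funext fun i => by simpa using congrFun h0 (σ i))) h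
  exact ⟨σ.symm i, by rwa [e, pderiv_rename σ.symm.injective, eval_rename]⟩

theorem Phi_perm (σ : Equiv.Perm (Fin 6)) (p q : Fin 2 → Fin 6 → L) (a b : Fin 6) :
    Phi (ω ∘ σ) p q (a, b) = (Equiv.Perm.sign σ : ℤ) * Phi ω p q (σ a, σ b) := by
  rw [Phi, Phi, ← mn_perm (n := 4)]
  refine congrFun (congrArg (mn (n := 4)) (funext fun i => ?_)) _
  fin_cases i <;> rfl

theorem Phi_ne (hs : Skew ω) (hG : SmCub (cub ω)) (hl : NoLine ℂ ω) (hc : NoConic ℂ ω)
    (h0 : wd (f 0) (f 1) ≠ 0) (hf : w ω (f 0) (f 1) = 0)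
    (gen : IntermediateField.adjoin ℂ {x | ∃ i j, x = wd (f 0) (f 1) i / wd (f 0) (f 1) j} = ⊤)
    (hd : dim ℂ F = 2) (pf : IsPF ι (τ.comp ι)) (inv : ∀ x, τ (τ x) = x) :
    Phi ω (fun l => ι ∘ f l) (fun l => τ.comp ι ∘ f l) (0, 1) ≠ 0 := by
  have hw : ∀ α : F →ₐ[ℂ] L, w ω (α ∘ f 0) (α ∘ f 1) = 0 :=
    fun α => by rw [← map_w, hf]; ext; simp
  obtain ⟨⟨a, b⟩, hab⟩ := exists_mn_ne (n := 4) (li_c4 (p := fun l => ι ∘ f l)
    (q := fun l => τ.comp ι ∘ f l) (hc.field L) (li_four (p := fun l => ι ∘ f l)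
      (q := fun l => τ.comp ι ∘ f l) hs (hl.field L) (hw _) (hw _)
      (wd_ne h0 gen (tb_pf hd pf).2)) (hw _) (hw _))
  have hne : a ≠ b := by
    rintro rfl
    exact hab (mn_self (n := 4) _ a)
  obtain ⟨σ, hσ⟩ := Equiv.Perm.exists_extending_pair (f := (![0, 1] : Fin 2 → Fin 6))
    (g := ![a, b]) (by decide) (by simp [Function.Injective, Fin.forall_fin_two, hne, hne.symm])
  have z : ∀ {x : Fin 6 → ℂ}, x ∘ σ = 0 → x = 0 := fun h =>
    funext fun i => by simpa using congrFun h (σ.symm i)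
  have hs' : Skew (ω ∘ σ) := fun a => hs _
  have hG' := smCub_perm σ hG
  have sg : ((Equiv.Perm.sign σ : ℤ) : L) ≠ 0 := by
    rcases Int.units_eq_one_or (Equiv.Perm.sign σ) with h | h <;> simp [h]
  obtain ⟨Λ, -, -, e⟩ := exists_lines hs' (noRk2_of_sm hs' hG'.2)
    (fun u h1 h2 => hl u (z h1) (z h2))
    (fun k hk β h => hc k hk β fun l => z (by
      rw [← h l]
      ext a
      simp only [Function.comp_apply, Finset.sum_apply, Pi.smul_apply]
      exact Finset.sum_congr rfl fun j _ => by fin_cases j <;> rfl))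
    h0 (funext fun a => congrFun hf (σ a)) gen hd pf inv (by
      rw [Phi_perm, show σ 0 = a from hσ 0, show σ 1 = b from hσ 1]
      exact mul_ne_zero sg hab)
  have h1 : Λ.plk (σ.symm 0, σ.symm 1) ≠ 0 :=
    Fano21.SmC.pl_ne ⟨hG'.1, hG'.2⟩ (genPt hG' Λ) (σ.symm.injective.ne (by decide))
  rw [e, Pi.smul_apply, Phi_perm σ _ _ (σ.symm 0), σ.apply_symm_apply, σ.apply_symm_apply] at h1
  exact right_ne_zero_of_mul (right_ne_zero_of_mul h1)

end main

theorem val_of_mx {ι : Type} [Fintype ι] {s : ι → L} (h0 : s ≠ 0) {V : RZ ℂ L} {γ : V.1.ValueGroup}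
    (h : Mx V.1.valuation s γ) : (mxf ℂ s).val V = γ :=
  Mx.unique ⟨fun i => mem_Sec_mxf s i V, exists_val_mxf (Function.ne_iff.1 h0) V⟩ h

/-- **the map of Beauville and Donagi** -/
theorem pfStmt : PfStmt := by
  intro ω hs hG hl hc F L _ _ _ _ _ P ι τ hd hP gen pf inv
  obtain ⟨f, rfl, hf⟩ := exists_fr hs hP
  have h01 := Phi_ne hs hG hl hc hP.ne hf gen hd pf inv
  obtain ⟨Λ, h1, h2, h3⟩ := exists_lines hs (noRk2_of_sm hs hG.2) hl hc hP.ne hf gen hd pf inv h01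
  have hw : ∀ α : F →ₐ[ℂ] L, w ω (α ∘ f 0) (α ∘ f 1) = 0 :=
    fun α => by rw [← map_w, hf]; ext; simp
  have hne := wd_ne hP.ne gen (tb_pf hd pf).2
  have hz : ∀ α : F →ₐ[ℂ] L, (fun i => α (wd (f 0) (f 1) i)) = wd (α ∘ f 0) (α ∘ f 1) :=
    fun α => (alg_wd α _ _).symm
  refine ⟨Λ, h1, h2, _, inv_ne_zero h01, ?_, ext' fun V => ?_⟩
  · rw [map_inv₀, ← inv_neg]
    exact congrArg _ (congrFun (tau_Phi hs inv) (0, 1))
  obtain ⟨a, b, e, m1, m2, m3, m4⟩ := mx_Phi hs hl hc V.1 V.2 (p := fun l => ι ∘ f l)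
    (q := fun l => τ.comp ι ∘ f l) (hw _) (hw _) hne
  have v1 := val_of_mx (fun h0 => hne (by rw [h0]; ext; simp [wd])) m1
  have v2 := val_of_mx (fun h0 => hne (by rw [h0]; ext; simp [wd])) m2
  have v3 := val_of_mx hne m3
  have n3 : a * b * e ≠ 0 := v3 ▸ val_ne _ V
  have v4 : (mxf ℂ Λ.plk).val V = V.v (Phi ω (fun l => ι ∘ f l) (fun l => τ.comp ι ∘ f l) (0, 1))⁻¹ *
      (a ^ 2 * b ^ 2 * e ^ 5) := by
    rw [h3]
    refine val_of_mx (smul_ne_zero (inv_ne_zero h01) fun h0 => h01 (congrFun h0 _))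
      ⟨fun i => ?_, m4.2.imp fun i hi => ?_⟩ <;> rw [Pi.smul_apply, smul_eq_mul, map_mul]
    · exact mul_le_mul_right (m4.1 i) _
    · rw [hi]
  simp only [dgl, pb_mxf, val_add, val_sub, val_nsmul, val_pr (inv_ne_zero h01), hz]
  rw [show St91.wd (wd (ι ∘ f 0) (ι ∘ f 1)) (wd (τ.comp ι ∘ f 0) (τ.comp ι ∘ f 1)) = wd _ _ from rfl,
    v4, v1, v2, v3]
  have na := left_ne_zero_of_mul (left_ne_zero_of_mul n3)
  have nb := right_ne_zero_of_mul (left_ne_zero_of_mul n3)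
  have ne := right_ne_zero_of_mul n3
  field_simp

end Crest.Agent.X262.Pf19
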